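import Vale.Agent.P074.MathlibUsed
import Mathlib.Analysis.SpecialFunctions.ImproperIntegrals
import Mathlib.Analysis.SpecialFunctions.Integrals.Basic
import Mathlib.Analysis.SpecialFunctions.Pow.Integral

/-!
# P074: from weak type estimates to strong estimates
-/

open MeasureTheory Set
open scoped ENNReal NNReal

namespace Vale.Agent.P074.H275

variable {α : Type*} [MeasurableSpace α]

theorem meas_eq {μ : Measure α} [IsProbabilityMeasure μ] (s : Set α) :
    μ s = ENNReal.ofReal (μ.real s) := by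
  rw [Measure.real, ENNReal.ofReal_toReal (measure_ne_top _ _)]

theorem lint_Ioc {b s : ℝ} (hb : 0 < b) (hs : 0 < s) {N : ℝ} (hN : 0 ≤ N) :
    ∫⁻ t in Ioc 0 b, ENNReal.ofReal (N * t ^ (s - 1)) = ENNReal.ofReal (N * (b ^ s / s)) := by
  have hi : IntervalIntegrable (fun t : ℝ => t ^ (s - 1)) volume 0 b :=
    intervalIntegral.intervalIntegrable_rpow' (by linarith only [hs])
  have hi' : IntegrableOn (fun t : ℝ => t ^ (s - 1)) (Ioc 0 b) := by
    rwa [intervalIntegrable_iff_integrableOn_Ioc_of_le hb.le] at hi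
  rw [← ofReal_integral_eq_lintegral_ofReal (hi'.const_mul N)]
  · congr 1
    rw [integral_const_mul, ← intervalIntegral.integral_of_le hb.le,
      integral_rpow (Or.inl (by linarith only [hs])), sub_add_cancel, Real.zero_rpow hs.ne',
      sub_zero]
  · refine (ae_restrict_mem measurableSet_Ioc).mono fun t ht => ?_
    exact mul_nonneg hN (Real.rpow_nonneg ht.1.le _)

theorem lint_Ioi {b s : ℝ} (hb : 0 < b) (hs : 0 < s) {N : ℝ} (hN : 0 ≤ N) :
    ∫⁻ t in Ioi b, ENNReal.ofReal (N * t ^ (-s - 1)) = ENNReal.ofReal (N * (b ^ (-s) / s)) := by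
  have hi : IntegrableOn (fun t : ℝ => t ^ (-s - 1)) (Ioi b) :=
    integrableOn_Ioi_rpow_of_lt (by linarith only [hs]) hb
  rw [← ofReal_integral_eq_lintegral_ofReal (hi.const_mul N)]
  · congr 1
    rw [integral_const_mul, integral_Ioi_rpow_of_lt (by linarith only [hs]) hb, sub_add_cancel]
    rw [neg_div_neg_eq]
  · refine (ae_restrict_mem measurableSet_Ioi).mono fun t ht => ?_
    exact mul_nonneg hN (Real.rpow_nonneg (hb.trans ht).le _)

/-- Exponents above the weak type exponent, bounded functions. -/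
theorem strong_hi {μ : Measure α} [IsProbabilityMeasure μ] {f : α → ℝ} (hf : Measurable f)
    (hf0 : ∀ x, 0 ≤ f x) {B N q q₀ : ℝ} (hB : 0 < B) (hfB : ∀ᵐ x ∂μ, f x ≤ B) (hq : q₀ < q)
    (hq0 : 0 < q) (hN : 0 ≤ N) (hw : ∀ t, 0 < t → μ.real {x | t ≤ f x} ≤ N * t ^ (-q₀)) :
    ∫⁻ x, ENNReal.ofReal (f x ^ q) ∂μ ≤ ENNReal.ofReal (q * (N * (B ^ (q - q₀) / (q - q₀)))) := by
  rw [lintegral_rpow_eq_lintegral_meas_le_mul μ (ae_of_all _ hf0) hf.aemeasurable hq0,
    ENNReal.ofReal_mul hq0.le]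
  gcongr
  have hsplit : (Ioi (0 : ℝ)) = Ioc 0 B ∪ Ioi B := (Ioc_union_Ioi_eq_Ioi hB.le).symm
  rw [hsplit]
  refine (lintegral_union_le _ _ _).trans ?_
  have h2 : ∫⁻ t in Ioi B, μ {a | t ≤ f a} * ENNReal.ofReal (t ^ (q - 1)) = 0 := by
    rw [← lintegral_zero (μ := volume.restrict (Ioi B))]
    apply setLIntegral_congr_fun measurableSet_Ioi
    intro t ht
    have h3 : μ {a | t ≤ f a} = 0 := by
      have h4 : ∀ᵐ x ∂μ, ¬ (t ≤ f x) := by
        filter_upwards [hfB] with x hx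
        have : B < t := ht
        linarith only [hx, this]
      rw [ae_iff] at h4
      simpa using h4
    simp only [h3, zero_mul]
  rw [h2, add_zero, ← lint_Ioc hB (by linarith only [hq] : 0 < q - q₀) hN]
  apply setLIntegral_mono' measurableSet_Ioc
  intro t ht
  rw [meas_eq, ← ENNReal.ofReal_mul measureReal_nonneg]
  apply ENNReal.ofReal_le_ofReal
  have h3 : t ^ (q - q₀ - 1) = t ^ (-q₀) * t ^ (q - 1) := by
    rw [← Real.rpow_add ht.1]
    congr 1
    ring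
  rw [h3, ← mul_assoc]
  exact mul_le_mul_of_nonneg_right (hw t ht.1) (Real.rpow_nonneg ht.1.le _)

/-- Exponents below the weak type exponent. -/
theorem strong_lo {μ : Measure α} [IsProbabilityMeasure μ] {f : α → ℝ} (hf : Measurable f)
    (hf0 : ∀ x, 0 ≤ f x) {N q q₀ : ℝ} (hq : q < q₀)
    (hq0 : 0 < q) (hN : 0 ≤ N) (hw : ∀ t, 0 < t → μ.real {x | t ≤ f x} ≤ N * t ^ (-q₀)) :
    ∫⁻ x, ENNReal.ofReal (f x ^ q) ∂μ ≤
      ENNReal.ofReal ((1 + q / (q₀ - q)) * N ^ (q / q₀)) := by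
  have hqq : 0 < q₀ - q := by linarith only [hq]
  have hq₀ : 0 < q₀ := hq0.trans hq
  rw [lintegral_rpow_eq_lintegral_meas_le_mul μ (ae_of_all _ hf0) hf.aemeasurable hq0]
  rcases hN.eq_or_lt with h0 | h0
  · have h2 : ∫⁻ t in Ioi (0 : ℝ), μ {a | t ≤ f a} * ENNReal.ofReal (t ^ (q - 1)) = 0 := by
      rw [← lintegral_zero (μ := volume.restrict (Ioi (0 : ℝ)))]
      apply setLIntegral_congr_fun measurableSet_Ioi
      intro t ht
      have h3 := hw t ht
      rw [← h0, zero_mul] at h3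
      simp only
      rw [meas_eq, le_antisymm h3 measureReal_nonneg, ENNReal.ofReal_zero, zero_mul]
    rw [h2, mul_zero]
    exact zero_le
  obtain ⟨τ, hτ⟩ : ∃ τ : ℝ, τ = N ^ (1 / q₀) := ⟨_, rfl⟩
  have hτ0 : 0 < τ := by rw [hτ]; exact Real.rpow_pos_of_pos h0 _
  have e1 : τ ^ q = N ^ (q / q₀) := by
    rw [hτ, ← Real.rpow_mul hN]
    congr 1
    ring
  have e2 : N * τ ^ (-(q₀ - q)) = N ^ (q / q₀) := by
    rw [hτ, ← Real.rpow_mul hN]
    nth_rewrite 1 [← Real.rpow_one N]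
    rw [← Real.rpow_add h0]
    congr 1
    field_simp
    ring
  have hsplit : (Ioi (0 : ℝ)) = Ioc 0 τ ∪ Ioi τ := (Ioc_union_Ioi_eq_Ioi hτ0.le).symm
  have h1 : ∫⁻ t in Ioc 0 τ, μ {a | t ≤ f a} * ENNReal.ofReal (t ^ (q - 1)) ≤
      ENNReal.ofReal (1 * (τ ^ q / q)) := by
    rw [← lint_Ioc hτ0 hq0 zero_le_one]
    apply setLIntegral_mono' measurableSet_Ioc
    intro t ht
    rw [meas_eq, ← ENNReal.ofReal_mul measureReal_nonneg]
    apply ENNReal.ofReal_le_ofReal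
    exact mul_le_mul_of_nonneg_right measureReal_le_one (Real.rpow_nonneg ht.1.le _)
  have h2 : ∫⁻ t in Ioi τ, μ {a | t ≤ f a} * ENNReal.ofReal (t ^ (q - 1)) ≤
      ENNReal.ofReal (N * (τ ^ (-(q₀ - q)) / (q₀ - q))) := by
    rw [← lint_Ioi hτ0 hqq hN]
    apply setLIntegral_mono' measurableSet_Ioi
    intro t ht
    have ht0 : 0 < t := hτ0.trans ht
    rw [meas_eq, ← ENNReal.ofReal_mul measureReal_nonneg]
    apply ENNReal.ofReal_le_ofReal
    have h3 : t ^ (-(q₀ - q) - 1) = t ^ (-q₀) * t ^ (q - 1) := by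
      rw [← Real.rpow_add ht0]
      congr 1
      ring
    rw [h3, ← mul_assoc]
    exact mul_le_mul_of_nonneg_right (hw t ht0) (Real.rpow_nonneg ht0.le _)
  have h3 : 0 ≤ τ ^ q / q := by positivity
  have h4 : 0 ≤ N * (τ ^ (-(q₀ - q)) / (q₀ - q)) := by positivity
  have h5 : ∫⁻ t in Ioi (0 : ℝ), μ {a | t ≤ f a} * ENNReal.ofReal (t ^ (q - 1)) ≤
      ENNReal.ofReal (1 * (τ ^ q / q) + N * (τ ^ (-(q₀ - q)) / (q₀ - q))) := by
    rw [hsplit, ENNReal.ofReal_add (by linarith only [h3]) h4]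
    exact (lintegral_union_le _ _ _).trans (add_le_add h1 h2)
  refine (mul_le_mul_right h5 _).trans ?_
  rw [← ENNReal.ofReal_mul hq0.le]
  apply ENNReal.ofReal_le_ofReal
  apply le_of_eq
  rw [show N * (τ ^ (-(q₀ - q)) / (q₀ - q)) = (N * τ ^ (-(q₀ - q))) / (q₀ - q) by ring, e1, e2]
  field_simp

end Vale.Agent.P074.H275
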