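import Vale.Agent.P074.Defs

/-!
# P074: stability of optimal maps in `L^q`
-/

open MeasureTheory Set
open scoped ENNReal NNReal

namespace Vale.Agent.P074

/-- The stability estimate `‖T_μ - T_ν‖_{L^q(ρ)} ≤ C W_p(μ, ν)^α` for all probability measures
`μ, ν` supported in `Y`. -/
def LqStability {X : Type} [NormedAddCommGroup X] [MeasurableSpace X] (ρ : Measure X) (Y : Set X)
    (q p α : ℝ) (C : ℝ≥0) : Prop :=
  ∀ μ ν : Measure X, IsProbabilityMeasure μ → IsProbabilityMeasure ν →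
    μ Yᶜ = 0 → ν Yᶜ = 0 → ∀ T S : X → X, IsOptimalMap ρ μ T → IsOptimalMap ρ ν S →
      eLpNorm (fun x => T x - S x) (ENNReal.ofReal q) ρ ≤ C * Wass p μ ν ^ α

/-- The weak-type estimate `a ρ{|T_μ - T_ν| ≥ a}^{1/q} ≤ C W_p(μ, ν)^α` for all `a ≥ 0` and all
probability measures `μ, ν` supported in `Y`. -/
def WeakLqStability {X : Type} [NormedAddCommGroup X] [MeasurableSpace X] (ρ : Measure X)
    (Y : Set X) (q p α : ℝ) (C : ℝ≥0) : Prop :=
  ∀ μ ν : Measure X, IsProbabilityMeasure μ → IsProbabilityMeasure ν →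
    μ Yᶜ = 0 → ν Yᶜ = 0 → ∀ T S : X → X, IsOptimalMap ρ μ T → IsOptimalMap ρ ν S →
      ∀ a : ℝ≥0, a * ρ {x | a ≤ ‖T x - S x‖} ^ (1 / q) ≤ C * Wass p μ ν ^ α

end Vale.Agent.P074
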