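import Vale.Agent.P074.Bdl.B1
import Vale.Agent.P074.H275.Defs

/-!
# P074: the exponent in `L^q` is at most `p / (q (p + 1))`

The example of `stability_exponent_le`, read in `L^q`.
-/

open MeasureTheory Set Metric
open scoped ENNReal NNReal

namespace Vale.Agent.P074.H275

open Vale.Agent.P074

theorem lq_exponent_le {d : ℕ} (hd : 2 ≤ d) {K Y : Set (E d)} (hK : IsCompact K)
    (hKi : (interior K).Nonempty) (hY : IsCompact Y) (hYi : (interior Y).Nonempty)
    {θ p α : ℝ} (hθ : 1 ≤ θ) (hp : 0 < p)
    (hα : 0 ≤ α) {C : ℝ≥0} (hst : LqStability (unif K) Y θ p α C) : α ≤ p / (θ * (p + 1)) := by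
  classical
  have hθ0 : 0 < θ := by linarith only [hθ]
  have hθe : ENNReal.ofReal θ ≠ 0 := by
    rw [ENNReal.ofReal_ne_zero_iff]
    exact hθ0
  let i0 : Fin d := ⟨0, by omega⟩
  let i1 : Fin d := ⟨1, by omega⟩
  have h01 : i0 ≠ i1 := by simp [i0, i1]
  have hprob : IsProbabilityMeasure (unif K) := isProbabilityMeasure_unif hK hKi
  obtain ⟨b, r, hr, hcube⟩ := exists_cube hKi
  obtain ⟨R, hRpos, hKR⟩ := hK.isBounded.exists_pos_norm_le
  obtain ⟨q, hq⟩ := hYi
  obtain ⟨s', hs', hball⟩ := Metric.isOpen_iff.1 isOpen_interior q hq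
  set s : ℝ := s' / 2 with hs_def
  have hs : 0 < s := by (clear * - hs'; positivity)
  have hsites : ∀ (i : Fin d) (t : ℝ), |t| ≤ s → q + EuclideanSpace.single i t ∈ Y := by
    intro i t ht
    apply interior_subset
    apply hball
    rw [Metric.mem_ball, dist_eq_norm]
    simp only [add_sub_cancel_left, PiLp.norm_single, Real.norm_eq_abs]
    linarith only [hs_def, hs, ht]
  have hRae : ∀ᵐ x ∂(unif K), ‖x‖ ≤ R := by
    have : ∀ᵐ x ∂(volume.restrict K), ‖x‖ ≤ R := by
      filter_upwards [ae_restrict_mem hK.measurableSet] with x hx using hKR x hx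
    unfold unif ProbabilityTheory.cond
    exact Measure.ae_smul_measure this _
  have hRae1 : ∀ᵐ x ∂(unif K), |x i1| ≤ R := by
    filter_upwards [hRae] with x hx using le_trans (PiLp.norm_apply_le x i1) hx
  have hac : unif K ≪ volume := by
    unfold unif ProbabilityTheory.cond
    exact (Measure.absolutelyContinuous_of_le Measure.restrict_le_self).smul_left _
  have hvK0 : volume K ≠ 0 := (Measure.measure_pos_of_nonempty_interior _ hKi).ne'
  have hvKt : volume K ≠ ∞ := hK.measure_ne_top
  -- constants
  set A : ℝ≥0∞ := (volume K)⁻¹ * (ENNReal.ofReal (6 * R) * ENNReal.ofReal (2 * R) ^ (d - 1))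
    with hA_def
  set B : ℝ≥0∞ := (volume K)⁻¹ * (ENNReal.ofReal (r / 4) * ENNReal.ofReal (r / 2) ^ (d - 1))
    with hB_def
  have hAt : A ≠ ∞ := by
    rw [hA_def]
    apply ENNReal.mul_ne_top (ENNReal.inv_ne_top.2 hvK0)
    exact ENNReal.mul_ne_top ENNReal.ofReal_ne_top (ENNReal.pow_ne_top ENNReal.ofReal_ne_top)
  have hBt : B ≠ ∞ := by
    rw [hB_def]
    apply ENNReal.mul_ne_top (ENNReal.inv_ne_top.2 hvK0)
    exact ENNReal.mul_ne_top ENNReal.ofReal_ne_top (ENNReal.pow_ne_top ENNReal.ofReal_ne_top)
  have hB0 : B ≠ 0 := by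
    rw [hB_def]
    apply mul_ne_zero (ENNReal.inv_ne_zero.2 hvKt)
    apply mul_ne_zero
    · rw [ENNReal.ofReal_ne_zero_iff]; positivity
    · apply pow_ne_zero
      rw [ENNReal.ofReal_ne_zero_iff]; positivity
  have hBpos : 0 < B.toReal := ENNReal.toReal_pos hB0 hBt
  set δ₀ : ℝ := min 1 (r / (3 * R + r)) with hδ₀_def
  have hδ₀ : 0 < δ₀ := lt_min one_pos (by (clear * - hr hRpos; positivity))
  have main : ∀ δ : ℝ, 0 < δ → δ ≤ δ₀ →
      (s * B.toReal ^ (1 / θ : ℝ)) * δ ^ (1 / θ : ℝ) ≤
        (C * (s ^ p * A.toReal) ^ (1 / p * α)) * δ ^ ((p + 1) / p * α) := by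
    intro δ hδ hδle
    have hδ1 : δ ≤ 1 := le_trans hδle (min_le_left _ _)
    have hδr : δ * (3 * R + r) ≤ r := by
      have : δ ≤ r / (3 * R + r) := le_trans hδle (min_le_right _ _)
      rwa [le_div_iff₀ (by (clear * - hRpos hr; positivity))] at this
    have hδR : 0 < δ * R := by (clear * - hδ hRpos; positivity)
    set t₁ : ℝ := b i0 - 3 * (δ * R) with ht₁
    set t₂ : ℝ := b i0 + 3 * (δ * R) with ht₂
    obtain ⟨c₁, hc₁, hm₁⟩ := exists_tilt (unif K) hac i0 i1 h01 1 one_ne_zero δ R hδ.le
      hRpos.le hRae1 t₁
    obtain ⟨c', hc', hm'⟩ := exists_tilt (unif K) hac i0 i1 h01 (-1) (by norm_num) δ R hδ.le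
      hRpos.le hRae1 (-t₂)
    set c₂ : ℝ := -c' with hc₂
    have hm₁' : unif K {x : E d | x i0 + δ * x i1 ≤ c₁} = unif K {x : E d | x i0 ≤ t₁} := by
      simpa only [one_mul] using hm₁
    have hm₂' : unif K {x : E d | c₂ ≤ x i0 - δ * x i1} = unif K {x : E d | t₂ ≤ x i0} := by
      have e1 : {x : E d | c₂ ≤ x i0 - δ * x i1} = {x : E d | -1 * x i0 + δ * x i1 ≤ c'} := by
        ext x
        change c₂ ≤ x i0 - δ * x i1 ↔ -1 * x i0 + δ * x i1 ≤ c'
        constructor <;> intro h <;> linarith only [h]
      have e2 : {x : E d | t₂ ≤ x i0} = {x : E d | -1 * x i0 ≤ -t₂} := by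
        ext x
        change t₂ ≤ x i0 ↔ -1 * x i0 ≤ -t₂
        constructor <;> intro h <;> linarith only [h]
      rw [e1, e2, hm']
    have ht : t₁ < t₂ := by linarith only [hδR]
    have hc : 2 * (δ * R) < c₂ - c₁ := by
      have := hc₁.2
      have := hc'.2
      (clear Y hY p α hp hα C hst i1 h01 r hr hcube hKR q hq s' hs' hball s hs_def hs hsites hRae hRae1 hac hvK0 hvKt A hA_def B hB_def hAt hBt hB0 hBpos δ₀ hδ₀_def hδ₀ hδle hδ1 hδr ht₁ ht₂ hm₁ hm' hc₂ hm₁' hm₂' ht; linarith)
    -- the two target measures
    set T : E d → E d := T3 i0 i1 q s 0 t₁ t₂ with hT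
    set S : E d → E d := T3 i0 i1 q s δ c₁ c₂ with hS
    have hTm : Measurable T := measurable_T3 _ _ _ _ _ _ _
    have hSm : Measurable S := measurable_T3 _ _ _ _ _ _ _
    have hμ : IsProbabilityMeasure ((unif K).map T) :=
      Measure.isProbabilityMeasure_map hTm.aemeasurable
    have hν : IsProbabilityMeasure ((unif K).map S) :=
      Measure.isProbabilityMeasure_map hSm.aemeasurable
    have hTY : ∀ x, T x ∈ Y := by
      intro x
      rcases T3_values i0 i1 q s 0 t₁ t₂ x with h | h | h <;> rw [hT, h] <;> apply hsites
      · rw [abs_neg, abs_of_pos hs]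
      · rw [abs_of_pos hs]
      · simp [hs.le]
    have hSY : ∀ x, S x ∈ Y := by
      intro x
      rcases T3_values i0 i1 q s δ c₁ c₂ x with h | h | h <;> rw [hS, h] <;> apply hsites
      · rw [abs_neg, abs_of_pos hs]
      · rw [abs_of_pos hs]
      · rw [abs_of_nonneg (by (clear * - hs' hδ; positivity))]
        nlinarith only [hs_def, hs', hδ1]
    have hsupp : ∀ U : E d → E d, Measurable U → (∀ x, U x ∈ Y) → (unif K).map U Yᶜ = 0 := by
      intro U hU hUY
      rw [Measure.map_apply hU hY.measurableSet.compl]
      have : U ⁻¹' Yᶜ = ∅ := by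
        ext x
        simp [hUY x]
      rw [this, measure_empty]
    have hoptT : IsOptimalMap (unif K) ((unif K).map T) T := by
      apply T3_isOptimal (unif K) h01 q hs le_rfl hRae
      linarith only [hδR]
    have hoptS : IsOptimalMap (unif K) ((unif K).map S) S := by
      apply T3_isOptimal (unif K) h01 q hs hδ.le hRae
      linarith only [hc]
    have hest := hst _ _ hμ hν (hsupp T hTm hTY) (hsupp S hSm hSY) T S hoptT hoptS
    -- upper bound for the Wasserstein distance
    have hW : Wass p ((unif K).map T) ((unif K).map S) ≤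
        (ENNReal.ofReal (s * δ) ^ p * (A * ENNReal.ofReal δ)) ^ (1 / p) := by
      refine le_trans (wass_le (unif K) h01 q hs hδ hRae ht hc hm₁' hm₂' hp) ?_
      apply ENNReal.rpow_le_rpow _ (by positivity)
      gcongr
      have hmS : MeasurableSet {x : E d | x i0 ∈ Icc t₁ t₂} := by
        apply measurableSet_Icc.preimage
        fun_prop
      let lo : Fin d → ℝ := fun i => if i = i0 then t₁ else -R
      let hi : Fin d → ℝ := fun i => if i = i0 then t₂ else R
      refine le_trans (unif_le (B := {x : E d | ∀ i, x i ∈ Icc (lo i) (hi i)}) hmS ?_) ?_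
      · rintro x ⟨hx1, hx2⟩ i
        by_cases hi' : i = i0
        · simp only [lo, hi, hi', if_true]
          exact hx1
        · simp only [lo, hi, hi', if_false]
          exact abs_le.1 (le_trans (PiLp.norm_apply_le x i) (hKR x hx2))
      · rw [volume_box_one i0 lo hi (2 * R) (6 * R * δ)]
        · rw [ENNReal.ofReal_mul (by positivity : (0:ℝ) ≤ 6 * R)]
          apply le_of_eq
          rw [hA_def]
          ring
        · intro i hi'
          simp only [lo, hi, hi', if_false]
          ring
        · simp only [lo, hi, if_true, ht₁, ht₂]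
          ring
    -- lower bound for the distance of the maps
    have hL : ENNReal.ofReal s * (B * ENNReal.ofReal δ) ^ (1 / θ : ℝ) ≤
        eLpNorm (fun x => T x - S x) (ENNReal.ofReal θ) (unif K) := by
      -- a box on which the maps differ by at least `s`
      obtain ⟨D, hDK, hDm, hDv, hDT⟩ : ∃ D : Set (E d), D ⊆ K ∧ MeasurableSet D ∧
          volume D = ENNReal.ofReal (r / 4 * δ) * ENNReal.ofReal (r / 2) ^ (d - 1) ∧
          ∀ x ∈ D, s ≤ ‖T x - S x‖ := by
        rcases le_total c₁ (t₁ + δ * b i1) with hcase | hcase
        · let lo : Fin d → ℝ := fun i =>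
            if i = i0 then t₁ - r / 4 * δ else b i + r / 2
          let hi : Fin d → ℝ := fun i => if i = i0 then t₁ else b i + r
          refine ⟨{x : E d | ∀ i, x i ∈ Icc (lo i) (hi i)}, ?_, ?_, ?_, ?_⟩
          · intro x hx
            apply hcube
            intro i
            have hxi := hx i
            by_cases hi' : i = i0
            · simp only [lo, hi, hi', if_true] at hxi
              rw [hi', abs_le]
              constructor
              · have := hxi.1
                nlinarith only [hδr, this, hr, hδ]
              · have := hxi.2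
                nlinarith only [hr, hδR, this]
            · simp only [lo, hi, hi', if_false] at hxi
              rw [abs_le]
              constructor
              · linarith only [hr, hxi.1]
              · linarith only [hxi.2]
          · rw [ofPred_forall]
            exact MeasurableSet.iInter fun i => measurableSet_Icc.preimage (by fun_prop)
          · apply volume_box_one i0 lo hi (r / 2) (r / 4 * δ)
            · intro i hi'
              simp only [lo, hi, hi', if_false]
              ring
            · simp only [lo, hi, if_true]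
              ring
          · intro x hx
            have hx0 := hx i0
            have hx1 := hx i1
            simp only [lo, hi, if_true] at hx0
            simp only [lo, hi, h01.symm, if_false] at hx1
            have h1 : T x = q + EuclideanSpace.single i0 (-s) := by
              rw [hT, T3_eq_left_iff h01 q hs]
              linarith only [hx0.2]
            have h2 : ¬ (x i0 + δ * x i1 ≤ c₁) := by
              push Not
              have := mul_le_mul_of_nonneg_left hx1.1 hδ.le
              nlinarith only [hcase, this, hr, hδ, hx0.1]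
            have h3 : ¬ (S x = q + EuclideanSpace.single i0 (-s)) := by
              rw [hS, T3_eq_left_iff h01 q hs]
              exact h2
            rw [h1]
            rcases T3_values i0 i1 q s δ c₁ c₂ x with h | h | h
            · exact absurd h h3
            · rw [hS, h]
              exact left_dist_right i0 q hs
            · rw [hS, h]
              exact left_dist_mid h01 q hs _
        · let lo : Fin d → ℝ := fun i =>
            if i = i0 then t₁ + r / 4 * δ else b i - r
          let hi : Fin d → ℝ := fun i => if i = i0 then t₁ + r / 2 * δ else b i - r / 2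
          refine ⟨{x : E d | ∀ i, x i ∈ Icc (lo i) (hi i)}, ?_, ?_, ?_, ?_⟩
          · intro x hx
            apply hcube
            intro i
            have hxi := hx i
            by_cases hi' : i = i0
            · simp only [lo, hi, hi', if_true] at hxi
              rw [hi', abs_le]
              constructor
              · have := hxi.1
                nlinarith only [hδr, this, hr, hδ]
              · have := hxi.2
                nlinarith only [hr, hδr, hδR, this]
            · simp only [lo, hi, hi', if_false] at hxi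
              rw [abs_le]
              constructor
              · linarith only [hxi.1]
              · linarith only [hr, hxi.2]
          · rw [ofPred_forall]
            exact MeasurableSet.iInter fun i => measurableSet_Icc.preimage (by fun_prop)
          · apply volume_box_one i0 lo hi (r / 2) (r / 4 * δ)
            · intro i hi'
              simp only [lo, hi, hi', if_false]
              ring
            · simp only [lo, hi, if_true]
              ring
          · intro x hx
            have hx0 := hx i0
            have hx1 := hx i1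
            simp only [lo, hi, if_true] at hx0
            simp only [lo, hi, h01.symm, if_false] at hx1
            have h1 : S x = q + EuclideanSpace.single i0 (-s) := by
              rw [hS, T3_eq_left_iff h01 q hs]
              have := mul_le_mul_of_nonneg_left hx1.2 hδ.le
              nlinarith only [hcase, this, hx0.2]
            have h2 : ¬ (x i0 + 0 * x i1 ≤ t₁) := by
              push Not
              nlinarith only [hr, hδ, hx0.1]
            have h3 : ¬ (T x = q + EuclideanSpace.single i0 (-s)) := by
              rw [hT, T3_eq_left_iff h01 q hs]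
              exact h2
            rw [h1, norm_sub_rev]
            rcases T3_values i0 i1 q s 0 t₁ t₂ x with h | h | h
            · exact absurd h h3
            · rw [hT, h]
              exact left_dist_right i0 q hs
            · rw [hT, h]
              exact left_dist_mid h01 q hs _
      have hρD : unif K D = B * ENNReal.ofReal δ := by
        rw [unif_apply_subset hDK hDm, hDv, ENNReal.ofReal_mul (by positivity), hB_def]
        ring
      have h2 := mul_meas_ge_le_pow_eLpNorm' (μ := unif K) (f := fun x => T x - S x)
        (p := ENNReal.ofReal θ) hθe ENNReal.ofReal_ne_top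
        (hTm.sub hSm).aestronglyMeasurable (ENNReal.ofReal s)
      have h3 : unif K D ≤ unif K {x | ENNReal.ofReal s ≤ ‖T x - S x‖ₑ} := by
        apply measure_mono
        intro x hx
        change ENNReal.ofReal s ≤ ‖T x - S x‖ₑ
        rw [← ofReal_norm]
        exact ENNReal.ofReal_le_ofReal (hDT x hx)
      rw [← hρD]
      have h4 : ENNReal.ofReal s ^ θ * unif K D ≤
          eLpNorm (fun x => T x - S x) (ENNReal.ofReal θ) (unif K) ^ θ := by
        refine le_trans (mul_le_mul_right h3 _) ?_
        rw [ENNReal.toReal_ofReal hθ0.le] at h2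
        exact h2
      have h5 : ENNReal.ofReal s * (unif K D) ^ (1 / θ : ℝ) =
          (ENNReal.ofReal s ^ θ * unif K D) ^ (1 / θ : ℝ) := by
        rw [ENNReal.mul_rpow_of_nonneg _ _ (one_div_nonneg.2 hθ0.le), ← ENNReal.rpow_mul,
          mul_one_div_cancel hθ0.ne', ENNReal.rpow_one]
      rw [h5]
      calc (ENNReal.ofReal s ^ θ * unif K D) ^ (1 / θ : ℝ)
          ≤ (eLpNorm (fun x => T x - S x) (ENNReal.ofReal θ) (unif K) ^ θ) ^ (1 / θ : ℝ) :=
            ENNReal.rpow_le_rpow h4 (one_div_nonneg.2 hθ0.le)
        _ = eLpNorm (fun x => T x - S x) (ENNReal.ofReal θ) (unif K) := by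
            rw [← ENNReal.rpow_mul, mul_one_div_cancel hθ0.ne', ENNReal.rpow_one]
    have hfinal : ENNReal.ofReal s * (B * ENNReal.ofReal δ) ^ (1 / θ : ℝ) ≤
        C * ((ENNReal.ofReal (s * δ) ^ p * (A * ENNReal.ofReal δ)) ^ (1 / p)) ^ α :=
      le_trans hL (le_trans hest (by (clear * - hW hα; gcongr)))
    -- conversion to real numbers
    have hne : C * ((ENNReal.ofReal (s * δ) ^ p * (A * ENNReal.ofReal δ)) ^ (1 / p)) ^ α ≠ ∞ := by
      apply ENNReal.mul_ne_top ENNReal.coe_ne_top
      apply ENNReal.rpow_ne_top_of_nonneg hα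
      apply ENNReal.rpow_ne_top_of_nonneg (by positivity)
      apply ENNReal.mul_ne_top (ENNReal.rpow_ne_top_of_nonneg hp.le ENNReal.ofReal_ne_top)
      exact ENNReal.mul_ne_top hAt ENNReal.ofReal_ne_top
    have hreal := ENNReal.toReal_mono hne hfinal
    simp only [ENNReal.toReal_mul, ← ENNReal.toReal_rpow, ENNReal.coe_toReal] at hreal
    rw [ENNReal.toReal_ofReal hs.le, ENNReal.toReal_ofReal hδ.le,
      ENNReal.toReal_ofReal (by (clear * - hs' hδ; positivity))] at hreal
    have hA0 : 0 ≤ A.toReal := ENNReal.toReal_nonneg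
    have hB0 : 0 ≤ B.toReal := ENNReal.toReal_nonneg
    have e1 : s * (B.toReal * δ) ^ (1 / θ : ℝ) = (s * B.toReal ^ (1 / θ : ℝ)) * δ ^ (1 / θ : ℝ) := by
      rw [Real.mul_rpow hB0 hδ.le]
      ring
    have e2 : (C : ℝ) * (((s * δ) ^ p * (A.toReal * δ)) ^ (1 / p)) ^ α =
        (C * (s ^ p * A.toReal) ^ (1 / p * α)) * δ ^ ((p + 1) / p * α) := by
      rw [← Real.rpow_mul (by (clear * - hs' hδ; positivity)), Real.mul_rpow hs.le hδ.le]
      have e3 : s ^ p * δ ^ p * (A.toReal * δ) = (s ^ p * A.toReal) * δ ^ (p + 1) := by
        rw [Real.rpow_add hδ, Real.rpow_one]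
        ring
      rw [e3, Real.mul_rpow (by (clear * - hs'; positivity)) (by (clear * - hδ; positivity)), ← Real.rpow_mul hδ.le]
      have e4 : (p + 1) * (1 / p * α) = (p + 1) / p * α := by ring
      rw [e4]
      ring
    rw [e1, e2] at hreal
    exact hreal
  have := exponent_bound (by (clear * - hs' hBpos; positivity)) (by (clear * - hs'; positivity)) hδ₀ main
  have h2 : (p + 1) / p * α ≤ 1 / θ := this
  rw [le_div_iff₀ (mul_pos hθ0 (by linarith only [hp]))]
  rw [div_mul_eq_mul_div, div_le_div_iff₀ hp hθ0] at h2
  linarith only [h2]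

end Vale.Agent.P074.H275
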