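import Vale.Agent.P074.H275.Up
import Vale.Agent.P074.H275.Low1
import Vale.Agent.P074.H51.Half

/-!
# P074: the whole diagram of exponents
-/

open MeasureTheory Set Metric
open scoped ENNReal NNReal

namespace Vale.Agent.P074.H275

open Vale.Agent.P074

variable {d : ℕ}

/-- Monotonicity in the integrability exponent. -/
theorem lq_mono_q {ρ : Measure (E d)} [IsProbabilityMeasure ρ] {Y : Set (E d)} {q q' p α : ℝ}
    {C : ℝ≥0} (hq : q ≤ q') (h : LqStability ρ Y q' p α C) : LqStability ρ Y q p α C := by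
  intro μ ν hμ hν hμY hνY T S hT hS
  exact (eLpNorm_le_eLpNorm_of_exponent_le (ENNReal.ofReal_le_ofReal hq)
    (hT.1.sub hS.1).aestronglyMeasurable).trans (h μ ν hμ hν hμY hνY T S hT hS)

/-- Monotonicity of the Wasserstein distances. -/
theorem wass_mono {μ ν : Measure (E d)} [IsProbabilityMeasure μ] {p p' : ℝ} (hp : 0 < p)
    (hpp : p ≤ p') : Wass p μ ν ≤ Wass p' μ ν := by
  have hp' : 0 < p' := lt_of_lt_of_le hp hpp
  unfold Wass
  have key : (⨅ (π : Measure (E d × E d)) (_ : π.map Prod.fst = μ) (_ : π.map Prod.snd = ν),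
      ∫⁻ z, ‖z.1 - z.2‖ₑ ^ p ∂π) ^ (p' / p) ≤
      ⨅ (π : Measure (E d × E d)) (_ : π.map Prod.fst = μ) (_ : π.map Prod.snd = ν),
        ∫⁻ z, ‖z.1 - z.2‖ₑ ^ p' ∂π := by
    refine le_iInf fun π => le_iInf fun h1 => le_iInf fun h2 => ?_
    have hπ : IsProbabilityMeasure π := by
      refine ⟨?_⟩
      have h3 : π.map Prod.fst univ = 1 := by rw [h1]; exact measure_univ
      rwa [Measure.map_apply measurable_fst MeasurableSet.univ, preimage_univ] at h3
    have h4 : (⨅ (π : Measure (E d × E d)) (_ : π.map Prod.fst = μ) (_ : π.map Prod.snd = ν),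
        ∫⁻ z, ‖z.1 - z.2‖ₑ ^ p ∂π) ≤ ∫⁻ z, ‖z.1 - z.2‖ₑ ^ p ∂π :=
      iInf_le_of_le π (iInf_le_of_le h1 (iInf_le_of_le h2 le_rfl))
    refine (ENNReal.rpow_le_rpow h4 (by positivity)).trans ?_
    have h5 := eLpNorm_le_eLpNorm_of_exponent_le (μ := π) (f := fun z : E d × E d => z.1 - z.2)
      (ENNReal.ofReal_le_ofReal hpp) (measurable_fst.sub measurable_snd).aestronglyMeasurable
    have e0 : ENNReal.ofReal p ≠ 0 := by rw [ENNReal.ofReal_ne_zero_iff]; exact hp
    have e0' : ENNReal.ofReal p' ≠ 0 := by rw [ENNReal.ofReal_ne_zero_iff]; exact hp'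
    rw [eLpNorm_eq_lintegral_rpow_enorm_toReal e0 ENNReal.ofReal_ne_top,
      eLpNorm_eq_lintegral_rpow_enorm_toReal e0' ENNReal.ofReal_ne_top,
      ENNReal.toReal_ofReal hp.le, ENNReal.toReal_ofReal hp'.le] at h5
    have h6 := ENNReal.rpow_le_rpow h5 hp'.le
    rw [← ENNReal.rpow_mul, ← ENNReal.rpow_mul, one_div_mul_cancel hp'.ne',
      ENNReal.rpow_one] at h6
    have e : 1 / p * p' = p' / p := by ring
    rwa [e] at h6
  have h7 := ENNReal.rpow_le_rpow key (one_div_nonneg.2 hp'.le)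
  rw [← ENNReal.rpow_mul] at h7
  have e : p' / p * (1 / p') = 1 / p := by field_simp
  rwa [e] at h7

/-- Monotonicity in the index of the Wasserstein distance. -/
theorem lq_mono_p {ρ : Measure (E d)} {Y : Set (E d)} {q p p' α : ℝ} {C : ℝ≥0}
    (hα : 0 ≤ α) (hp : 0 < p) (hpp : p ≤ p') (h : LqStability ρ Y q p α C) :
    LqStability ρ Y q p' α C := by
  intro μ ν hμ hν hμY hνY T S hT hS
  refine (h μ ν hμ hν hμY hνY T S hT hS).trans ?_
  gcongr
  exact wass_mono hp hpp

/-- No exponent above `1/2`, in any `L^q`. -/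
theorem lq_exponent_le_half (hd : 2 ≤ d) {K Y : Set (E d)} (hK : IsCompact K)
    (hKi : (interior K).Nonempty) (hY : IsCompact Y) (hYi : (interior Y).Nonempty)
    {q p α : ℝ} (hq : 1 ≤ q) (hp : 0 < p) (hα : 0 ≤ α) {C : ℝ≥0}
    (hst : LqStability (unif K) Y q p α C) : α ≤ 1 / 2 := by
  have hprob : IsProbabilityMeasure (unif K) := isProbabilityMeasure_unif hK hKi
  have h1 := lq_mono_q hq hst
  refine H51.half_le hd hK hKi hY hYi hp hα (C := C) ?_
  intro μ ν hμ hν hμY hνY T S hT hS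
  have := h1 μ ν hμ hν hμY hνY T S hT hS
  rwa [ENNReal.ofReal_one] at this

theorem crit_iff {p q : ℝ} (hp : 1 ≤ p) (hq : 1 ≤ q) :
    2 * p / (p + 1) ≤ q ↔ p / (q * (p + 1)) ≤ 1 / 2 := by
  have hp3 : 0 < p + 1 := by linarith only [hp]
  have hq0 : 0 < q := by linarith only [hq]
  rw [div_le_iff₀ hp3, div_le_iff₀ (by positivity)]
  constructor <;> intro h <;> linarith only [h]

/-- The exponent `min (1/2) (p / (q (p + 1)))` off the critical line, and at the end point
`p = q = 1`. -/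
theorem diag_attained {K Y : Set (E d)} (hK : IsCompact K) (hKc : Convex ℝ K)
    (hKi : (interior K).Nonempty) (hY : IsCompact Y) {p q : ℝ} (hp1 : 1 ≤ p) (hp2 : p ≤ 2)
    (hq : 1 ≤ q) (hc : q ≠ 2 * p / (p + 1) ∨ p = 1) :
    ∃ C : ℝ≥0, LqStability (unif K) Y q p (min (1 / 2) (p / (q * (p + 1)))) C := by
  have hq0 : 0 < q := by linarith only [hq]
  rcases lt_trichotomy q (2 * p / (p + 1)) with h | h | h
  · have h1 : 1 / 2 ≤ p / (q * (p + 1)) := by
      by_contra hcon
      push Not at hcon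
      exact absurd ((crit_iff hp1 hq).2 hcon.le) (not_le.2 h)
    rw [min_eq_left h1]
    exact up_lo hK hKc hKi hY hp1 hp2 hq0 h
  · have hp : p = 1 := hc.resolve_left fun hne => hne h
    subst hp
    have hq1 : q = 1 := by rw [h]; norm_num
    subst hq1
    have hprob : IsProbabilityMeasure (unif K) := isProbabilityMeasure_unif hK hKi
    obtain ⟨R, hR, hKR⟩ := hK.isBounded.exists_pos_norm_le
    have hvK0 : volume K ≠ 0 := (Measure.measure_pos_of_nonempty_interior _ hKi).ne'
    obtain ⟨C, hC⟩ := up_w1 d (volume K)⁻¹.toNNReal R hY (le_refl (1 : ℝ))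
    refine ⟨C, ?_⟩
    have e : min (1 / 2) (1 / (1 * (1 + 1))) = (1 : ℝ) / (2 * 1) := by norm_num
    rw [e]
    apply hC (unif K) hprob
    · intro A
      unfold unif ProbabilityTheory.cond
      rw [Measure.smul_apply, Measure.smul_apply, smul_eq_mul]
      have e2 : ((volume K)⁻¹.toNNReal : ℝ≥0∞) = (volume K)⁻¹ :=
        ENNReal.coe_toNNReal (ENNReal.inv_ne_top.2 hvK0)
      change (volume K)⁻¹ * (volume.restrict K) A ≤ ((volume K)⁻¹.toNNReal : ℝ≥0∞) * volume A
      rw [e2]
      gcongr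
      exact Measure.restrict_le_self
    · unfold unif ProbabilityTheory.cond
      rw [Measure.smul_apply, Measure.restrict_apply isClosed_closedBall.measurableSet.compl]
      have : (closedBall (0 : E d) R)ᶜ ∩ K = ∅ := by
        ext x
        simp only [mem_inter_iff, mem_compl_iff, mem_closedBall, dist_zero_right,
          mem_empty_iff_false, iff_false, not_and]
        intro h1 h2
        exact h1 (hKR x h2)
      rw [this, measure_empty, smul_zero]
  · have h1 : p / (q * (p + 1)) ≤ 1 / 2 := (crit_iff hp1 hq).1 h.le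
    rw [min_eq_right h1]
    exact up_hi hK hKc hKi hY hp1 hp2 h

/-- The whole diagram. -/
theorem diag_lub (hd : 2 ≤ d) {K Y : Set (E d)} (hK : IsCompact K) (hKc : Convex ℝ K)
    (hKi : (interior K).Nonempty) (hY : IsCompact Y) (hYi : (interior Y).Nonempty)
    {p q : ℝ} (hp1 : 1 ≤ p) (hp2 : p ≤ 2) (hq : 1 ≤ q) :
    IsLUB {α : ℝ | 0 ≤ α ∧ ∃ C : ℝ≥0, LqStability (unif K) Y q p α C}
      (min (1 / 2) (p / (q * (p + 1)))) := by
  have hp0 : 0 < p := by linarith only [hp1]
  have hp3 : 0 < p + 1 := by linarith only [hp1]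
  have hq0 : 0 < q := by linarith only [hq]
  have hprob : IsProbabilityMeasure (unif K) := isProbabilityMeasure_unif hK hKi
  constructor
  · rintro α ⟨hα, C, hC⟩
    exact le_min (lq_exponent_le_half hd hK hKi hY hYi hq hp0 hα hC)
      (lq_exponent_le hd hK hKi hY hYi hq hp0 hα hC)
  · intro b hb
    by_cases hc : q ≠ 2 * p / (p + 1) ∨ p = 1
    · obtain ⟨C, hC⟩ := diag_attained hK hKc hKi hY hp1 hp2 hq hc
      exact hb ⟨le_min (by norm_num) (by positivity), C, hC⟩
    · push Not at hc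
      have h1 : min (1 / 2) (p / (q * (p + 1))) = (1 : ℝ) / 2 := by
        rw [hc.1]
        have : p / (2 * p / (p + 1) * (p + 1)) = 1 / 2 := by field_simp
        rw [this, min_self]
      rw [h1]
      apply le_of_forall_lt
      intro a ha
      have hm : max a (1 / 4) < 1 / 2 := max_lt ha (by norm_num)
      set α : ℝ := (max a (1 / 4) + 1 / 2) / 2 with hα
      have hα1 : α < 1 / 2 := by linarith only [hα, hm]
      have hα2 : a < α := by linarith only [hα, hm, le_max_left a (1 / 4)]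
      have hα0 : 0 < α := by linarith only [hα, hm, le_max_right a (1 / 4)]
      have h2 : 2 * p / (p + 1) < p / (α * (p + 1)) := by
        rw [div_lt_div_iff₀ hp3 (by positivity)]
        have : 0 < p * (p + 1) * (1 - 2 * α) :=
          mul_pos (mul_pos hp0 hp3) (by linarith only [hα1])
        linarith only [this]
      obtain ⟨C, hC⟩ := up_hi hK hKc hKi hY hp1 hp2 h2
      have e : p / (p / (α * (p + 1)) * (p + 1)) = α := by field_simp
      rw [e] at hC
      have h3 : q ≤ p / (α * (p + 1)) := by rw [hc.1]; exact h2.le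
      exact lt_of_lt_of_le hα2 (hb ⟨hα0.le, C, lq_mono_q h3 hC⟩)

/-- For `p ≥ 2` and `q < 4 / 3` the exponent is exactly `1/2`. -/
theorem diag_two (hd : 2 ≤ d) {K Y : Set (E d)} (hK : IsCompact K) (hKc : Convex ℝ K)
    (hKi : (interior K).Nonempty) (hY : IsCompact Y) (hYi : (interior Y).Nonempty)
    {p q : ℝ} (hp : 2 ≤ p) (hq : 1 ≤ q) (hq2 : q < 4 / 3) :
    IsGreatest {α : ℝ | 0 ≤ α ∧ ∃ C : ℝ≥0, LqStability (unif K) Y q p α C} (1 / 2) := by
  have hp0 : 0 < p := by linarith only [hp]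
  have hq0 : 0 < q := by linarith only [hq]
  constructor
  · obtain ⟨C, hC⟩ := up_lo hK hKc hKi hY (p := 2) (by norm_num) le_rfl hq0
      (by norm_num; exact hq2)
    exact ⟨by norm_num, C, lq_mono_p (by norm_num) (by norm_num) hp hC⟩
  · rintro α ⟨hα, C, hC⟩
    exact lq_exponent_le_half hd hK hKi hY hYi hq hp0 hα hC

end Vale.Agent.P074.H275
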