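import Vale.Agent.P074.H275.Weak

/-!
# P074: the weak type estimate for the difference of two optimal maps
-/

open MeasureTheory Set Metric
open scoped ENNReal NNReal RealInnerProductSpace

namespace Vale.Agent.P074.H275

open Vale.Agent.P074 Vale.Agent.P074.H109

variable {d : ℕ}

/-- From all directions to the norm. -/
theorem full_level {ρ : Measure (E d)} [IsProbabilityMeasure ρ] {T₀ T₁ : E d → E d}
    {N s a : ℝ} (ha : 0 < a)
    (h : ∀ v : E d, ‖v‖ = 1 → ∀ t : ℝ, 0 < t →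
      ρ.real {x | t ≤ inner ℝ (T₁ x - T₀ x) v} ≤ N * t ^ s) :
    ρ.real {x | a ≤ ‖T₁ x - T₀ x‖} ≤ 2 * d * (N * (a / d) ^ s) := by
  have hn1 : ∀ i : Fin d, ‖(EuclideanSpace.single i (1 : ℝ) : E d)‖ = 1 := by
    intro i
    simp
  have hn2 : ∀ i : Fin d, ‖-(EuclideanSpace.single i (1 : ℝ) : E d)‖ = 1 := by
    intro i
    rw [norm_neg]; exact hn1 i
  rcases Nat.eq_zero_or_pos d with hd | hd
  · subst hd
    have : {x : E 0 | a ≤ ‖T₁ x - T₀ x‖} = ∅ := by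
      ext x
      simp only [mem_ofPred_eq, mem_empty_iff_false, iff_false, not_le]
      rw [Subsingleton.elim (T₁ x - T₀ x) 0, norm_zero]
      exact ha
    rw [this]
    simp
  have hd' : (0 : ℝ) < d := by exact_mod_cast hd
  have had : 0 < a / d := by positivity
  set Dp : Fin d → Set (E d) := fun i =>
    {x | a / d ≤ inner ℝ (T₁ x - T₀ x) (EuclideanSpace.single i (1 : ℝ))} with hDp
  set Dm : Fin d → Set (E d) := fun i =>
    {x | a / d ≤ inner ℝ (T₁ x - T₀ x) (-(EuclideanSpace.single i (1 : ℝ)))} with hDm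
  have hsub : {x | a ≤ ‖T₁ x - T₀ x‖} ⊆ ⋃ i : Fin d, (Dp i ∪ Dm i) := by
    intro x hx
    by_contra hcon
    simp only [mem_iUnion, not_exists, mem_union, not_or] at hcon
    have h1 : ∀ i : Fin d, |(T₁ x - T₀ x) i| < a / d := by
      intro i
      obtain ⟨h2, h3⟩ := hcon i
      have e : inner ℝ (T₁ x - T₀ x) (EuclideanSpace.single i (1 : ℝ)) = (T₁ x - T₀ x) i := by
        rw [EuclideanSpace.inner_single_right]; simp
      simp only [hDp, hDm, mem_ofPred_eq, not_le, inner_neg_right, e] at h2 h3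
      exact abs_lt.2 ⟨by linarith only [h3], h2⟩
    have h2 : ‖T₁ x - T₀ x‖ ≤ ∑ i : Fin d, |(T₁ x - T₀ x) i| := by
      have h3 : ‖T₁ x - T₀ x‖ ^ 2 ≤ (∑ i : Fin d, |(T₁ x - T₀ x) i|) ^ 2 := by
        rw [EuclideanSpace.real_norm_sq_eq]
        have h4 := Finset.sum_sq_le_sq_sum_of_nonneg (s := Finset.univ)
          (f := fun i : Fin d => |(T₁ x - T₀ x) i|) (fun i _ => abs_nonneg _)
        simpa only [sq_abs] using h4
      exact le_of_sq_le_sq h3 (Finset.sum_nonneg fun i _ => abs_nonneg _)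
    have h3 : ∑ i : Fin d, |(T₁ x - T₀ x) i| < ∑ _i : Fin d, a / d := by
      haveI : Nonempty (Fin d) := ⟨⟨0, hd⟩⟩
      exact Finset.sum_lt_sum_of_nonempty Finset.univ_nonempty fun i _ => h1 i
    rw [Finset.sum_const, Finset.card_univ, Fintype.card_fin, nsmul_eq_mul,
      mul_div_cancel₀ a hd'.ne'] at h3
    have hx' : a ≤ ‖T₁ x - T₀ x‖ := hx
    linarith only [hx', h2, h3]
  calc ρ.real {x | a ≤ ‖T₁ x - T₀ x‖} ≤ ρ.real (⋃ i : Fin d, (Dp i ∪ Dm i)) :=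
        measureReal_mono hsub (measure_ne_top _ _)
    _ ≤ ∑ i : Fin d, ρ.real (Dp i ∪ Dm i) := measureReal_iUnion_fintype_le _
    _ ≤ ∑ _i : Fin d, (N * (a / d) ^ s + N * (a / d) ^ s) := by
        apply Finset.sum_le_sum
        intro i _
        exact (measureReal_union_le _ _).trans
          (add_le_add (h _ (hn1 i) _ had) (h _ (hn2 i) _ had))
    _ = 2 * d * (N * (a / d) ^ s) := by
        rw [Finset.sum_const, Finset.card_univ, Fintype.card_fin, nsmul_eq_mul]; ring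

/-- Large levels are not attained. -/
theorem level_null {ρ : Measure (E d)} {T₀ T₁ : E d → E d} {M : ℝ}
    (hT₀M : ∀ᵐ x ∂ρ, T₀ x ∈ closedBall (0 : E d) M)
    (hT₁M : ∀ᵐ x ∂ρ, T₁ x ∈ closedBall (0 : E d) M) {v : E d} (hv : ‖v‖ = 1) {t : ℝ}
    (ht : 2 * M < t) : ρ.real {x | t ≤ inner ℝ (T₁ x - T₀ x) v} = 0 := by
  have : ρ {x | t ≤ inner ℝ (T₁ x - T₀ x) v} = 0 := by
    have h3 : ∀ᵐ x ∂ρ, ¬ (t ≤ inner ℝ (T₁ x - T₀ x) v) := by
      filter_upwards [hT₀M, hT₁M] with x h3 h4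
      have h3' : ‖T₀ x‖ ≤ M := mem_closedBall_zero_iff.1 h3
      have h4' : ‖T₁ x‖ ≤ M := mem_closedBall_zero_iff.1 h4
      have h5 : inner ℝ (T₁ x - T₀ x) v ≤ 2 * M := by
        calc inner ℝ (T₁ x - T₀ x) v ≤ ‖T₁ x - T₀ x‖ * ‖v‖ := real_inner_le_norm _ _
          _ ≤ 2 * M := by
            rw [hv, mul_one]
            exact (norm_sub_le _ _).trans (by linarith only [h3', h4'])
      linarith only [h5, ht]
    rw [ae_iff] at h3
    simpa using h3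
  simp [Measure.real, this]

/-- The weak type estimate in one direction. -/
theorem weak_dir {K : Set (E d)} (hK : IsCompact K) (hKc : Convex ℝ K)
    (hKi : (interior K).Nonempty) {R M : ℝ} (hR : 0 ≤ R) (hM : 1 ≤ M)
    {p : ℝ} (hp1 : 1 ≤ p) (hp2 : p ≤ 2)
    {x0 : E d} {r : ℝ} (hr : 0 < r) (hb : closedBall x0 r ⊆ K) (hKR : K ⊆ closedBall 0 R)
    {C : ℝ} (hC : 0 ≤ C)
    (hmain : ∀ σ : E d → ℝ, GoodDensity K σ →
      ∀ π : Measure (E d × E d), IsProbabilityMeasure π →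
        π (closedBall 0 M ×ˢ closedBall 0 M)ᶜ = 0 →
        (dualVal R M (src K σ) (π.map Prod.snd) - dualVal R M (src K σ) (π.map Prod.fst))
          - (dualVal R M (unif K) (π.map Prod.snd) - dualVal R M (unif K) (π.map Prod.fst))
        ≤ C * √(∫ x, (σ x - 1) ^ 2 ∂(unif K)) * √(∫ z, ‖z.1 - z.2‖ ^ 2 ∂π))
    {c : ℝ} (hc0 : 0 < c) (hc1 : c * (2 * M) ≤ r) (hc2 : c * (4 * M * (d / r)) ≤ 1)
    (hc3 : 4 * (4 * M ^ 2 * (d / r)) * c ≤ 1)
    {μ ν : Measure (E d)} (hμ : IsProbabilityMeasure μ) (hν : IsProbabilityMeasure ν)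
    (hμM : μ (closedBall 0 M)ᶜ = 0) (hνM : ν (closedBall 0 M)ᶜ = 0)
    {T₀ T₁ : E d → E d} (hT₀ : IsOptimalMap (unif K) μ T₀) (hT₁ : IsOptimalMap (unif K) ν T₁)
    {π : Measure (E d × E d)} (hπ : IsProbabilityMeasure π)
    (h1 : π.map Prod.fst = μ) (h2 : π.map Prod.snd = ν) {v : E d} (hv : ‖v‖ = 1) {t : ℝ}
    (ht : 0 < t) (htM : t ≤ 2 * M) :
    (unif K).real {x | t ≤ inner ℝ (T₁ x - T₀ x) v} ≤
      ((256 * C ^ 2 + 32 * R) * (c ^ p)⁻¹) ^ (1 / (p + 1)) *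
        (∫ z, ‖z.1 - z.2‖ ^ p ∂π) ^ (1 / (p + 1)) * t ^ (-(2 * p / (p + 1))) := by
  have hM0 : 0 ≤ M := by linarith only [hM]
  have hprob := Final.unif_prob hK hKi
  obtain ⟨ψ₀, hψ₀, he₀⟩ := optimalMap_potential hK hKi hR hM0 hKR hμ hμM hT₀
  obtain ⟨ψ₁, hψ₁, he₁⟩ := optimalMap_potential hK hKi hR hM0 hKR hν hνM hT₁
  have hT₀M := ae_mem_of_optimal hT₀ hμM
  have hT₁M := ae_mem_of_optimal hT₁ hνM
  have hsupp := support_of_marginals h1 h2 hμM hνM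
  set w : ℝ := ∫ z, ‖z.1 - z.2‖ ^ p ∂π with hw
  have hw0 : 0 ≤ w := integral_nonneg fun z => Real.rpow_nonneg (norm_nonneg _) _
  have hcp : 0 ≤ (c ^ p)⁻¹ := inv_nonneg.2 (Real.rpow_nonneg hc0.le p)
  have hB0 : 0 ≤ (256 * C ^ 2 + 32 * R) * (c ^ p)⁻¹ := mul_nonneg (by positivity) hcp
  apply solve_level hp1 measureReal_nonneg hw0 ht hB0
  apply opt_level (e := d / r) (P := 4 * M ^ 2 * (d / r)) hp1 measureReal_nonneg measureReal_le_one
    hw0 ht htM hr (by positivity) hC hR (by positivity) hc0 hc1 hc2 hc3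
  intro h h0 hhr k hk
  have hun : ‖h • v‖ = h := by
    rw [norm_smul, hv, mul_one, Real.norm_eq_abs, abs_of_pos h0]
  have hBm : MeasurableSet {x | t ≤ inner ℝ (T₁ x - T₀ x) v} :=
    measurableSet_le measurable_const (hT₁.1.sub hT₀.1).inner_const
  refine ⟨_, measureReal_nonneg, measureReal_mono inter_subset_right (measure_ne_top _ _),
    layer hK hKc hKi hr hb hun hhr hBm, ?_⟩
  have hm : ∀ σ : E d → ℝ, GoodDensity K σ →
    (dualVal R M (src K σ) ((unif K).map T₁) - dualVal R M (src K σ) ((unif K).map T₀))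
      - (dualVal R M (unif K) ((unif K).map T₁) - dualVal R M (unif K) ((unif K).map T₀))
    ≤ C * √(∫ x, (σ x - 1) ^ 2 ∂(unif K)) * √(k ^ (2 - p) * w) +
      2 * R * (k ^ (1 - p) * w) := by
    intro σ hσ
    have := mixed_ineq hK hKi hR hM0 hC hKR hmain hp1 hp2 hk hπ hsupp σ hσ
    rwa [h1, h2, ← hT₀.2.1, ← hT₁.2.1] at this
  exact level_conv hM hK hKc hKi hr hb hC hT₀.1 hT₁.1 hT₀M hT₁M hψ₀ hψ₁ he₀ he₁ hm
    (a := t) hun h0 hhr

/-- The choice of the constant. -/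
theorem exists_c {M e P r : ℝ} (hM : 0 < M) (hr : 0 < r) (he : 0 ≤ e) (hP : 0 ≤ P) :
    ∃ c : ℝ, 0 < c ∧ c * (2 * M) ≤ r ∧ c * (4 * M * e) ≤ 1 ∧ 4 * P * c ≤ 1 := by
  have h4 : 0 ≤ 4 * M * e := by positivity
  have hc0 : 0 < min (r / (2 * M)) (min (1 / (4 * M * e + 1)) (1 / (4 * P + 1))) :=
    lt_min (by positivity) (lt_min (by positivity) (by positivity))
  refine ⟨min (r / (2 * M)) (min (1 / (4 * M * e + 1)) (1 / (4 * P + 1))), hc0, ?_, ?_, ?_⟩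
  · have h1 : min (r / (2 * M)) (min (1 / (4 * M * e + 1)) (1 / (4 * P + 1))) ≤ r / (2 * M) :=
      min_le_left _ _
    rwa [le_div_iff₀ (by positivity)] at h1
  · have h1 : min (r / (2 * M)) (min (1 / (4 * M * e + 1)) (1 / (4 * P + 1))) ≤
        1 / (4 * M * e + 1) := (min_le_right _ _).trans (min_le_left _ _)
    rw [le_div_iff₀ (by positivity)] at h1
    linarith only [h1, hc0]
  · have h1 : min (r / (2 * M)) (min (1 / (4 * M * e + 1)) (1 / (4 * P + 1))) ≤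
        1 / (4 * P + 1) := (min_le_right _ _).trans (min_le_right _ _)
    rw [le_div_iff₀ (by positivity)] at h1
    linarith only [h1, hc0]

/-- The weak type estimate for the uniform source on a convex set, `1 ≤ p ≤ 2`. -/
theorem weak_conv {K : Set (E d)} (hK : IsCompact K) (hKc : Convex ℝ K)
    (hKi : (interior K).Nonempty) {R M : ℝ} (hR : 0 ≤ R) (hM : 1 ≤ M)
    (hKR : K ⊆ closedBall 0 R) {p : ℝ} (hp1 : 1 ≤ p) (hp2 : p ≤ 2) :
    ∃ N : ℝ, 0 ≤ N ∧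
      ∀ μ ν : Measure (E d), IsProbabilityMeasure μ → IsProbabilityMeasure ν →
      μ (closedBall 0 M)ᶜ = 0 → ν (closedBall 0 M)ᶜ = 0 →
      ∀ T₀ T₁ : E d → E d, IsOptimalMap (unif K) μ T₀ → IsOptimalMap (unif K) ν T₁ →
      ∀ π : Measure (E d × E d), IsProbabilityMeasure π →
        π.map Prod.fst = μ → π.map Prod.snd = ν →
        ∀ a : ℝ, 0 < a → (unif K).real {x | a ≤ ‖T₀ x - T₁ x‖} ≤
          N * (∫ z, ‖z.1 - z.2‖ ^ p ∂π) ^ (1 / (p + 1)) * a ^ (-(2 * p / (p + 1))) := by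
  have hM0 : 0 ≤ M := by linarith only [hM]
  have hMpos : 0 < M := by linarith only [hM]
  obtain ⟨C, hC, hmain⟩ := main_ineq hK hKc hKi hR hM0 hKR
  have hKi' := hKi
  obtain ⟨x0, hx0⟩ := hKi'
  obtain ⟨r', hr', hball⟩ := Metric.isOpen_iff.1 isOpen_interior x0 hx0
  have hr : 0 < r' / 2 := by positivity
  have hb : closedBall x0 (r' / 2) ⊆ K :=
    (closedBall_subset_ball (by linarith only [hr'])).trans (hball.trans interior_subset)
  have hprob := Final.unif_prob hK hKi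
  obtain ⟨c, hc0, hc1, hc2, hc3⟩ := exists_c (e := d / (r' / 2))
    (P := 4 * M ^ 2 * (d / (r' / 2))) hMpos hr (by positivity) (by positivity)
  obtain ⟨B, hB⟩ : ∃ B : ℝ, B = (256 * C ^ 2 + 32 * R) * (c ^ p)⁻¹ := ⟨_, rfl⟩
  have hB0 : 0 ≤ B := by
    rw [hB]
    exact mul_nonneg (by positivity) (inv_nonneg.2 (Real.rpow_nonneg hc0.le p))
  have hp3 : 0 < p + 1 := by linarith only [hp1]
  have hd0 : (0 : ℝ) ≤ d := Nat.cast_nonneg d
  refine ⟨2 * d * B ^ (1 / (p + 1)) * (d : ℝ) ^ (2 * p / (p + 1)),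
    mul_nonneg (mul_nonneg (by positivity) (Real.rpow_nonneg hB0 _)) (Real.rpow_nonneg hd0 _), ?_⟩
  intro μ ν hμ hν hμM hνM T₀ T₁ hT₀ hT₁ π hπ h1 h2 a ha
  have hw0 : 0 ≤ ∫ z, ‖z.1 - z.2‖ ^ p ∂π :=
    integral_nonneg fun z => Real.rpow_nonneg (norm_nonneg _) _
  obtain ⟨w, hw⟩ : ∃ w : ℝ, w = ∫ z, ‖z.1 - z.2‖ ^ p ∂π := ⟨_, rfl⟩
  rw [← hw] at hw0 ⊢
  have hdir : ∀ v : E d, ‖v‖ = 1 → ∀ t : ℝ, 0 < t →
      (unif K).real {x | t ≤ inner ℝ (T₁ x - T₀ x) v} ≤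
        (B ^ (1 / (p + 1)) * w ^ (1 / (p + 1))) * t ^ (-(2 * p / (p + 1))) := by
    intro v hv t ht
    rcases le_or_gt t (2 * M) with htM | htM
    · rw [hB, hw]
      exact weak_dir hK hKc hKi hR hM hp1 hp2 hr hb hKR hC hmain hc0 hc1 hc2 hc3 hμ hν hμM hνM
        hT₀ hT₁ hπ h1 h2 hv ht htM
    · rw [level_null (ae_mem_of_optimal hT₀ hμM) (ae_mem_of_optimal hT₁ hνM) hv htM]
      exact mul_nonneg (mul_nonneg (Real.rpow_nonneg hB0 _) (Real.rpow_nonneg hw0 _))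
        (Real.rpow_nonneg ht.le _)
  have hfull := full_level (ρ := unif K) ha hdir
  simp only [norm_sub_rev (T₀ _) (T₁ _)]
  refine hfull.trans (le_of_eq ?_)
  rw [Real.div_rpow ha.le hd0, Real.rpow_neg hd0]
  rcases Nat.eq_zero_or_pos d with hd | hd
  · subst hd; simp
  · have hd' : (0 : ℝ) < d := by exact_mod_cast hd
    have : 0 < (d : ℝ) ^ (2 * p / (p + 1)) := Real.rpow_pos_of_pos hd' _
    field_simp

end Vale.Agent.P074.H275
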