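import Vale.Agent.P074.H109.Main
import Vale.Agent.P074.H275.Defs

/-!
# P074: the `L^1` estimate for a general source
-/

open MeasureTheory Set Metric
open scoped ENNReal NNReal RealInnerProductSpace

namespace Vale.Agent.P074.H275

open Vale.Agent.P074 Vale.Agent.P074.H109

variable {d : ℕ}

/-- The bound in one direction. -/
theorem dir_l1 {ρ : Measure (E d)} [IsProbabilityMeasure ρ] {R M : ℝ} (hM : 1 ≤ M) (hR : 0 ≤ R)
    {Λ : ℝ≥0} (hρ : ρ ≤ Λ • volume)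
    (hρR : ρ (closedBall 0 R)ᶜ = 0)
    {T₀ T₁ : E d → E d} (hT₀ : Measurable T₀) (hT₁ : Measurable T₁)
    (hT₀M : ∀ᵐ x ∂ρ, T₀ x ∈ closedBall (0 : E d) M)
    (hT₁M : ∀ᵐ x ∂ρ, T₁ x ∈ closedBall (0 : E d) M)
    {ψ₀ ψ₁ : E d → ℝ} (hψ₀ : Continuous ψ₀) (hψ₁ : Continuous ψ₁)
    (he₀ : ∀ᵐ x ∂ρ, conj M ψ₀ x + ψ₀ (T₀ x) = inner ℝ x (T₀ x))
    (he₁ : ∀ᵐ x ∂ρ, conj M ψ₁ x + ψ₁ (T₁ x) = inner ℝ x (T₁ x))
    {w : ℝ} (hw₀ : ∫ x, ψ₀ (T₁ x) ∂ρ ≤ (∫ x, ψ₀ (T₀ x) ∂ρ) + w)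
    (hw₁ : ∫ x, ψ₁ (T₀ x) ∂ρ ≤ (∫ x, ψ₁ (T₁ x) ∂ρ) + w)
    {v : E d} (hv : ‖v‖ = 1) {h : ℝ} (h0 : 0 < h) (h1 : h ≤ 1) :
    ∫ x, max (inner ℝ (T₁ x - T₀ x) v) 0 ∂ρ ≤
      (2 * M * (Λ * (2 * M * (d * volume.real (closedBall (0 : E d) (R + 1)) / (R + 1))))) * h
        + 2 * w / h := by
  have hM0 : 0 ≤ M := by linarith only [hM]
  set u : E d := h • v with hu
  have hun : ‖u‖ = h := by rw [hu, norm_smul, hv, mul_one, Real.norm_eq_abs, abs_of_pos h0]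
  set t : E d → ℝ := fun x => inner ℝ (T₁ x - T₀ x) v with ht
  have htm : Measurable t := (hT₁.sub hT₀).inner_const
  have hDm : MeasurableSet {x | 0 < t x} := measurableSet_lt measurable_const htm
  set G : E d → ℝ := {x | 0 < t x}.indicator fun _ => 1 with hG
  have hGm : Measurable G := measurable_const.indicator hDm
  have hG0 : ∀ x, 0 ≤ G x := fun x => indicator_nonneg (fun _ _ => zero_le_one) x
  have hG1 : ∀ x, G x ≤ 1 := fun x => indicator_le_self' (fun _ _ => zero_le_one) x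
  have hG2 : ∀ x, G x ≤ 2 * M := fun x => (hG1 x).trans (by linarith only [hM])
  have hGB : ∀ x, |G x| ≤ 2 * M := fun x => by rw [abs_of_nonneg (hG0 x)]; exact hG2 x
  have hsG : ∀ x, (1 : ℝ) * G x ≤ 1 := fun x => by rw [one_mul]; exact hG1 x
  have hchain := chain_w1 hM0 hρR hT₀ hT₁ hT₀M hT₁M hψ₀ hψ₁ he₀ he₁ hw₀ hw₁ (u := u) hGm hG0 hG2
    one_pos hsG
  have hF := F_bound_w1 (u := u) hM0 hρR hT₀ hT₀M hψ₀ he₀ hGm hG0 hG2
  have hsd := second_diff hM0 hR hρ hρR hψ₀ hun h1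
  have k0 := integrable_mul_bdd (integrable_inner hρR hT₀ hT₀M (f := fun _ => u)
    continuous_const) hGm hGB
  have k1 := integrable_mul_bdd (integrable_inner hρR hT₁ hT₁M (f := fun _ => u)
    continuous_const) hGm hGB
  have hJ : h * ∫ x, max (t x) 0 ∂ρ = (∫ x, inner ℝ u (T₁ x) * G x ∂ρ) -
      ∫ x, inner ℝ u (T₀ x) * G x ∂ρ := by
    rw [← integral_sub k1 k0, ← integral_const_mul]
    apply integral_congr_ae
    filter_upwards with x
    show h * max (t x) 0 = inner ℝ u (T₁ x) * G x - inner ℝ u (T₀ x) * G x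
    have e : inner ℝ u (T₁ x) * G x - inner ℝ u (T₀ x) * G x = h * (t x * G x) := by
      have e1 : t x = inner ℝ v (T₁ x) - inner ℝ v (T₀ x) := by
        show inner ℝ (T₁ x - T₀ x) v = _
        rw [← inner_sub_right, real_inner_comm]
      rw [e1, hu, real_inner_smul_left, real_inner_smul_left]
      ring
    rw [e]
    congr 1
    by_cases hx : 0 < t x
    · rw [max_eq_left hx.le]
      have : G x = 1 := indicator_of_mem (show x ∈ {x | 0 < t x} from hx) _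
      rw [this, mul_one]
    · rw [max_eq_right (not_lt.1 hx)]
      have : G x = 0 := indicator_of_notMem (show x ∉ {x | 0 < t x} from hx) _
      rw [this, mul_zero]
  set c : ℝ := Λ * (2 * M * (d * volume.real (closedBall (0 : E d) (R + 1)) / (R + 1))) with hc
  have hF2 : ∫ x, (conj M ψ₀ (x + u) - conj M ψ₀ x) * G x ∂ρ ≤
      (∫ x, inner ℝ u (T₀ x) * G x ∂ρ) + 2 * M * (c * h ^ 2) :=
    hF.trans (add_le_add le_rfl (mul_le_mul_of_nonneg_left hsd (by positivity)))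
  show ∫ x, max (t x) 0 ∂ρ ≤ (2 * M * c) * h + 2 * w / h
  set S : ℝ := ∫ x, max (t x) 0 ∂ρ with hSdef
  rw [one_mul] at hchain
  have hfin3 : h * S ≤ h * ((2 * M * c) * h + 2 * w / h) := by
    have e : h * ((2 * M * c) * h + 2 * w / h) = 2 * M * (c * h ^ 2) + 2 * w := by field_simp
    rw [e]
    linarith only [hchain, hF2, hJ]
  exact le_of_mul_le_mul_left hfin3 h0

/-- From all directions to the norm. -/
theorem full_l1 {ρ : Measure (E d)} [IsProbabilityMeasure ρ] {M : ℝ} {T₀ T₁ : E d → E d}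
    (hT₀ : Measurable T₀) (hT₁ : Measurable T₁)
    (hT₀M : ∀ᵐ x ∂ρ, T₀ x ∈ closedBall (0 : E d) M)
    (hT₁M : ∀ᵐ x ∂ρ, T₁ x ∈ closedBall (0 : E d) M) {B : ℝ}
    (hB : ∀ v : E d, ‖v‖ = 1 → ∫ x, max (inner ℝ (T₁ x - T₀ x) v) 0 ∂ρ ≤ B) :
    ∫ x, ‖T₁ x - T₀ x‖ ∂ρ ≤ 2 * d * B := by
  have hi : ∀ v : E d, ‖v‖ = 1 →
      Integrable (fun x => max (inner ℝ (T₁ x - T₀ x) v) 0) ρ := by
    intro v hv
    apply Integrable.of_bound
      (((hT₁.sub hT₀).inner_const).max measurable_const).aestronglyMeasurable (2 * M)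
    filter_upwards [hT₀M, hT₁M] with x h1 h2
    have h1' : ‖T₀ x‖ ≤ M := mem_closedBall_zero_iff.1 h1
    have h2' : ‖T₁ x‖ ≤ M := mem_closedBall_zero_iff.1 h2
    have hM0 : 0 ≤ M := (norm_nonneg _).trans h1'
    have h3 : |inner ℝ (T₁ x - T₀ x) v| ≤ 2 * M := by
      calc |inner ℝ (T₁ x - T₀ x) v| ≤ ‖T₁ x - T₀ x‖ * ‖v‖ := abs_real_inner_le_norm _ _
        _ ≤ 2 * M := by
          rw [hv, mul_one]
          exact (norm_sub_le _ _).trans (by linarith only [h1', h2'])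
    rw [Real.norm_eq_abs, abs_of_nonneg (le_max_right _ _)]
    exact max_le ((le_abs_self _).trans h3) (by positivity)
  have hn1 : ∀ i : Fin d, ‖(EuclideanSpace.single i (1 : ℝ) : E d)‖ = 1 := by
    intro i
    simp
  have hn2 : ∀ i : Fin d, ‖-(EuclideanSpace.single i (1 : ℝ) : E d)‖ = 1 := by
    intro i
    rw [norm_neg]; exact hn1 i
  have hkey : ∀ y : E d, ‖y‖ ≤ ∑ i : Fin d,
      (max (inner ℝ y (EuclideanSpace.single i (1 : ℝ))) 0 +
        max (inner ℝ y (-(EuclideanSpace.single i (1 : ℝ)))) 0) := by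
    intro y
    have h1 : ∑ i : Fin d, (max (inner ℝ y (EuclideanSpace.single i (1 : ℝ))) 0 +
        max (inner ℝ y (-(EuclideanSpace.single i (1 : ℝ)))) 0) = ∑ i : Fin d, |y i| := by
      apply Finset.sum_congr rfl
      intro i _
      have e : inner ℝ y (EuclideanSpace.single i (1 : ℝ)) = y i := by
        rw [EuclideanSpace.inner_single_right]; simp
      rw [inner_neg_right, e]
      rcases le_total (y i) 0 with h | h
      · rw [max_eq_right h, max_eq_left (by linarith only [h]), abs_of_nonpos h]; ring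
      · rw [max_eq_left h, max_eq_right (by linarith only [h]), abs_of_nonneg h]; ring
    rw [h1]
    have h3 : ‖y‖ ^ 2 ≤ (∑ i : Fin d, |y i|) ^ 2 := by
      rw [EuclideanSpace.real_norm_sq_eq]
      have h4 := Finset.sum_sq_le_sq_sum_of_nonneg (s := Finset.univ)
        (f := fun i : Fin d => |y i|) (fun i _ => abs_nonneg _)
      simpa only [sq_abs] using h4
    exact le_of_sq_le_sq h3 (Finset.sum_nonneg fun i _ => abs_nonneg _)
  have hsum : Integrable (fun x => ∑ i : Fin d,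
      (max (inner ℝ (T₁ x - T₀ x) (EuclideanSpace.single i (1 : ℝ))) 0 +
        max (inner ℝ (T₁ x - T₀ x) (-(EuclideanSpace.single i (1 : ℝ)))) 0)) ρ :=
    integrable_finset_sum _ fun i _ => (hi _ (hn1 i)).add (hi _ (hn2 i))
  calc ∫ x, ‖T₁ x - T₀ x‖ ∂ρ ≤ ∫ x, ∑ i : Fin d,
      (max (inner ℝ (T₁ x - T₀ x) (EuclideanSpace.single i (1 : ℝ))) 0 +
        max (inner ℝ (T₁ x - T₀ x) (-(EuclideanSpace.single i (1 : ℝ)))) 0) ∂ρ :=
        integral_mono_of_nonneg (ae_of_all _ fun x => norm_nonneg _) hsum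
          (ae_of_all _ fun x => hkey _)
    _ = ∑ i : Fin d,
      ((∫ x, max (inner ℝ (T₁ x - T₀ x) (EuclideanSpace.single i (1 : ℝ))) 0 ∂ρ) +
        ∫ x, max (inner ℝ (T₁ x - T₀ x) (-(EuclideanSpace.single i (1 : ℝ)))) 0 ∂ρ) := by
        rw [integral_finsetSum]
        · apply Finset.sum_congr rfl
          intro i _
          exact integral_add (hi _ (hn1 i)) (hi _ (hn2 i))
        · intro i _
          exact (hi _ (hn1 i)).add (hi _ (hn2 i))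
    _ ≤ ∑ _i : Fin d, (B + B) :=
        Finset.sum_le_sum fun i _ => add_le_add (hB _ (hn1 i)) (hB _ (hn2 i))
    _ = 2 * d * B := by
      rw [Finset.sum_const, Finset.card_univ, Fintype.card_fin, nsmul_eq_mul]; ring

/-- The `L^1` estimate along couplings for a general source. -/
theorem final_l1 (d : ℕ) (Λ : ℝ≥0) {R M : ℝ} (hR : 0 ≤ R) (hM : 1 ≤ M) :
    ∃ C : ℝ, 0 ≤ C ∧ ∀ ρ : Measure (E d), IsProbabilityMeasure ρ → ρ ≤ Λ • volume →
      ρ (closedBall 0 R)ᶜ = 0 →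
      ∀ μ ν : Measure (E d), IsProbabilityMeasure μ → IsProbabilityMeasure ν →
      μ (closedBall 0 M)ᶜ = 0 → ν (closedBall 0 M)ᶜ = 0 →
      ∀ T₀ T₁ : E d → E d, IsOptimalMap ρ μ T₀ → IsOptimalMap ρ ν T₁ →
      ∀ π : Measure (E d × E d), IsProbabilityMeasure π →
        π.map Prod.fst = μ → π.map Prod.snd = ν →
        ∫ x, ‖T₀ x - T₁ x‖ ∂ρ ≤
          C * (∫ z, ‖z.1 - z.2‖ ^ (1 : ℝ) ∂π) ^ (1 / ((1 : ℝ) + 1)) := by
  have hM0 : 0 ≤ M := by linarith only [hM]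
  set a : ℝ := 2 * d * (2 * M * (Λ * (2 * M *
    (d * volume.real (closedBall (0 : E d) (R + 1)) / (R + 1))))) with ha
  set b : ℝ := 2 * d * (2 * R) with hb
  have ha0 : 0 ≤ a := by positivity
  have hb0 : 0 ≤ b := by positivity
  refine ⟨a + b + (2 * M) / 1, by positivity, ?_⟩
  intro ρ hprob hρ hρR μ ν hμ hν hμM hνM T₀ T₁ hT₀ hT₁ π hπ h1 h2
  have hρac : ρ ≪ volume :=
    (Measure.absolutelyContinuous_of_le hρ).trans (Measure.smul_absolutelyContinuous)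
  obtain ⟨ψ₀, hψ₀, he₀⟩ := potential hR hM0 hρac hρR hμ hμM hT₀
  obtain ⟨ψ₁, hψ₁, he₁⟩ := potential hR hM0 hρac hρR hν hνM hT₁
  have hT₀M := ae_mem_of_optimal hT₀ hμM
  have hT₁M := ae_mem_of_optimal hT₁ hνM
  have hsupp := support_of_marginals h1 h2 hμM hνM
  set w : ℝ := ∫ z, ‖z.1 - z.2‖ ∂π with hw
  have hw0 : 0 ≤ w := integral_nonneg fun z => norm_nonneg _
  have hmap : ∀ (T : E d → E d) (κ : Measure (E d)), IsOptimalMap ρ κ T →
      ∀ ψ : E d → ℝ, Continuous ψ → ∫ x, ψ (T x) ∂ρ = ∫ y, ψ y ∂κ := by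
    intro T κ hT ψ hψ
    rw [← hT.2.1, integral_map hT.1.aemeasurable hψ.aestronglyMeasurable]
  have hw₀ : ∫ x, ψ₀ (T₁ x) ∂ρ ≤ (∫ x, ψ₀ (T₀ x) ∂ρ) + R * w := by
    rw [hmap T₁ ν hT₁ ψ₀ hψ₀.continuous, hmap T₀ μ hT₀ ψ₀ hψ₀.continuous, ← h1, ← h2]
    exact (lip_coupling hR hsupp hψ₀).1
  have hw₁ : ∫ x, ψ₁ (T₀ x) ∂ρ ≤ (∫ x, ψ₁ (T₁ x) ∂ρ) + R * w := by
    rw [hmap T₁ ν hT₁ ψ₁ hψ₁.continuous, hmap T₀ μ hT₀ ψ₁ hψ₁.continuous, ← h1, ← h2]
    exact (lip_coupling hR hsupp hψ₁).2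
  have hD : ∀ h : ℝ, 0 < h → h ≤ 1 →
      ∫ x, ‖T₁ x - T₀ x‖ ∂ρ ≤ a * h + b * (w / h ^ (1 : ℝ)) := by
    intro h h0 hle
    have := full_l1 hT₀.1 hT₁.1 hT₀M hT₁M
      (B := (2 * M * (Λ * (2 * M *
        (d * volume.real (closedBall (0 : E d) (R + 1)) / (R + 1))))) * h
        + 2 * (R * w) / h) (fun v hv =>
        dir_l1 hM hR hρ hρR hT₀.1 hT₁.1 hT₀M hT₁M hψ₀.continuous hψ₁.continuous
          he₀ he₁ hw₀ hw₁ hv h0 hle)
    refine this.trans (le_of_eq ?_)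
    rw [Real.rpow_one, ha, hb]
    ring
  have hDc : ∫ x, ‖T₁ x - T₀ x‖ ∂ρ ≤ 2 * M := by
    have h3 : ∫ x, ‖T₁ x - T₀ x‖ ∂ρ ≤ ∫ _x, 2 * M ∂ρ := by
      apply integral_mono_of_nonneg (ae_of_all _ fun x => norm_nonneg _) (integrable_const _)
      filter_upwards [hT₀M, hT₁M] with x h3 h4
      have h3' : ‖T₀ x‖ ≤ M := mem_closedBall_zero_iff.1 h3
      have h4' : ‖T₁ x‖ ≤ M := mem_closedBall_zero_iff.1 h4
      exact (norm_sub_le _ _).trans (by linarith only [h3', h4'])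
    refine h3.trans (le_of_eq ?_)
    rw [integral_const, probReal_univ, one_smul]
  have hopt := optimise one_pos one_pos hw0 ha0 hb0 (by positivity) hD hDc
  simp only [norm_sub_rev (T₀ _) (T₁ _)]
  simp only [Real.rpow_one]
  exact hopt

end Vale.Agent.P074.H275
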