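import Vale.Agent.P074.H109.Main
import Vale.Agent.P074.H275.Defs

/-!
# P074: the level sets of the difference of two optimal maps
-/

open MeasureTheory Set Metric
open scoped ENNReal NNReal RealInnerProductSpace

namespace Vale.Agent.P074.H275

open Vale.Agent.P074 Vale.Agent.P074.H109

variable {d : ℕ}

/-- The basic inequality for a level set. -/
theorem level_conv {K : Set (E d)} {R M : ℝ} (hM : 1 ≤ M) (hK : IsCompact K)
    (hKc : Convex ℝ K)
    (hKi : (interior K).Nonempty) {x0 : E d} {r : ℝ} (hr : 0 < r) (hb : closedBall x0 r ⊆ K)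
    {C : ℝ} (hC : 0 ≤ C)
    {T₀ T₁ : E d → E d} (hT₀ : Measurable T₀) (hT₁ : Measurable T₁)
    (hT₀M : ∀ᵐ x ∂(unif K), T₀ x ∈ closedBall (0 : E d) M)
    (hT₁M : ∀ᵐ x ∂(unif K), T₁ x ∈ closedBall (0 : E d) M)
    {ψ₀ ψ₁ : E d → ℝ} (hψ₀ : LipschitzWith R.toNNReal ψ₀) (hψ₁ : LipschitzWith R.toNNReal ψ₁)
    (he₀ : ∀ᵐ x ∂(unif K), conj M ψ₀ x + ψ₀ (T₀ x) = inner ℝ x (T₀ x))
    (he₁ : ∀ᵐ x ∂(unif K), conj M ψ₁ x + ψ₁ (T₁ x) = inner ℝ x (T₁ x))
    {W Ae : ℝ}
    (hmain : ∀ σ : E d → ℝ, GoodDensity K σ →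
      (dualVal R M (src K σ) ((unif K).map T₁) - dualVal R M (src K σ) ((unif K).map T₀))
        - (dualVal R M (unif K) ((unif K).map T₁) - dualVal R M (unif K) ((unif K).map T₀))
      ≤ C * √(∫ x, (σ x - 1) ^ 2 ∂(unif K)) * √W + Ae)
    {v : E d} {h a : ℝ} (hun : ‖h • v‖ = h) (h0 : 0 < h) (hhr : h ≤ r) :
    a * h * (unif K).real ((K ∩ {x | x + h • v ∈ K}) ∩ {x | a ≤ inner ℝ (T₁ x - T₀ x) v}) ≤
      2 * C * √((unif K).real ((K ∩ {x | x + h • v ∈ K}) ∩ {x | a ≤ inner ℝ (T₁ x - T₀ x) v}))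
        * √W + 2 * Ae + 4 * M ^ 2 * (d / r) * h ^ 2 := by
  have hM0 : 0 ≤ M := by linarith only [hM]
  have hprob := Final.unif_prob hK hKi
  have hKm : MeasurableSet K := hK.measurableSet
  set u : E d := h • v with hu
  set A : Set (E d) := {x | x + u ∈ K} with hA
  have hAm : MeasurableSet A := Translate.measurableSet_shift hKm u
  set B : Set (E d) := {x | a ≤ inner ℝ (T₁ x - T₀ x) v} with hB
  have hBm : MeasurableSet B := measurableSet_le measurable_const (hT₁.sub hT₀).inner_const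
  set D : Set (E d) := (K ∩ A) ∩ B with hD
  have hDm : MeasurableSet D := (hKm.inter hAm).inter hBm
  set m : ℝ := (unif K).real D with hm
  set G : E d → ℝ := D.indicator fun _ => 1 with hG
  have hGm : Measurable G := measurable_const.indicator hDm
  have hG0 : ∀ x, 0 ≤ G x := fun x => indicator_nonneg (fun _ _ => zero_le_one) x
  have hG1 : ∀ x, G x ≤ 1 := fun x => indicator_le_self' (fun _ _ => zero_le_one) x
  have hG2 : ∀ x, G x ≤ 2 * M := fun x => (hG1 x).trans (by linarith only [hM])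
  have hGB : ∀ x, |G x| ≤ 2 * M := fun x => by rw [abs_of_nonneg (hG0 x)]; exact hG2 x
  have hGs : ∀ x, G x ≠ 0 → x ∈ K ∧ x + u ∈ K := by
    intro x hx
    by_contra hcon
    have hcon' : x ∉ D := fun hh => hcon ⟨hh.1.1, hh.1.2⟩
    exact hx (indicator_of_notMem hcon' _)
  have hGi : ∫ x, G x ∂(unif K) = m := by
    rw [hG, integral_indicator hDm, setIntegral_const, smul_eq_mul, mul_one]
  have hGsq : ∀ x, G x ^ 2 = G x := by
    intro x
    by_cases hx : x ∈ D
    · rw [hG, indicator_of_mem hx]; norm_num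
    · rw [hG, indicator_of_notMem hx]; norm_num
  have hG2i : ∫ x, G x ^ 2 ∂(unif K) = m := by
    simp only [hGsq]
    exact hGi
  have hsG : ∀ x, (1 / 2 : ℝ) * G x ≤ 1 / 2 := fun x => by
    have := hG1 x
    linarith only [this]
  have hchain := chain_add hM0 hK hKi hT₀ hT₁ hT₀M hT₁M hψ₀ hψ₁ he₀ he₁ hmain hGm hG0 hG2 hGs
    (by norm_num : (0 : ℝ) < 1 / 2) hsG
  have hF := Final.F_bound hM0 hK hKc hKi hr hb hT₀ hT₀M hψ₀.continuous he₀ hun h0 hhr hGm hG0
    hG2 hGs
  have hσ2 := Final.sigma_sq hK hKi hGm hGB hGs (1 / 2)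
  rw [hG2i] at hσ2
  have hgain : a * h * m ≤ (∫ x, inner ℝ u (T₁ x) * G x ∂(unif K)) -
      ∫ x, inner ℝ u (T₀ x) * G x ∂(unif K) := by
    have k0 := Final.integrable_mul_bdd (Final.integrable_inner hK hKi hT₀ hT₀M
      (f := fun _ => u) continuous_const) hGm hGB
    have k1 := Final.integrable_mul_bdd (Final.integrable_inner hK hKi hT₁ hT₁M
      (f := fun _ => u) continuous_const) hGm hGB
    have iG : Integrable G (unif K) := (integrable_const _).indicator hDm
    rw [← hGi, ← integral_sub k1 k0, ← integral_const_mul]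
    apply integral_mono (iG.const_mul _) (k1.sub k0)
    intro x
    show a * h * G x ≤ inner ℝ u (T₁ x) * G x - inner ℝ u (T₀ x) * G x
    by_cases hx : x ∈ D
    · have hGx : G x = 1 := indicator_of_mem hx _
      have hx2 : a ≤ inner ℝ (T₁ x - T₀ x) v := hx.2
      rw [hGx, mul_one, mul_one, mul_one, hu, real_inner_smul_left, real_inner_smul_left,
        ← mul_sub, ← inner_sub_right, real_inner_comm, mul_comm a h]
      exact mul_le_mul_of_nonneg_left hx2 h0.le
    · have hGx : G x = 0 := indicator_of_notMem hx _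
      rw [hGx]
      simp
  have hm0 : 0 ≤ m := measureReal_nonneg
  have hsq : √(∫ x, ((1 - 1 / 2 * G x + 1 / 2 * G (x - u)) - 1) ^ 2 ∂(unif K)) ≤ √m := by
    apply Real.sqrt_le_sqrt
    linarith only [hσ2]
  have h1 : C * √(∫ x, ((1 - 1 / 2 * G x + 1 / 2 * G (x - u)) - 1) ^ 2 ∂(unif K)) * √W ≤
      C * √m * √W :=
    mul_le_mul_of_nonneg_right (mul_le_mul_of_nonneg_left hsq hC) (Real.sqrt_nonneg _)
  linarith only [hchain, hF, hgain, h1]

/-- Removing the boundary layer. -/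
theorem layer {K : Set (E d)} (hK : IsCompact K) (hKc : Convex ℝ K)
    (hKi : (interior K).Nonempty) {x0 : E d} {r : ℝ} (hr : 0 < r) (hb : closedBall x0 r ⊆ K)
    {u : E d} {h : ℝ} (hun : ‖u‖ = h) (hhr : h ≤ r) {B : Set (E d)} (hB : MeasurableSet B) :
    (unif K).real B ≤ (unif K).real ((K ∩ {x | x + u ∈ K}) ∩ B) + (d / r) * h := by
  have hprob := Final.unif_prob hK hKi
  have hKm : MeasurableSet K := hK.measurableSet
  have hvolK : 0 < volume.real K :=
    ENNReal.toReal_pos (Final.volume_ne_zero hKi) hK.measure_ne_top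
  set A : Set (E d) := {x | x + u ∈ K} with hA
  have hAm : MeasurableSet A := Translate.measurableSet_shift hKm u
  have hvd := Translate.volume_diff_le hK hKc hr hb u (by rw [hun]; exact hhr)
  rw [hun] at hvd
  have h1 : (unif K).real B ≤ (unif K).real (((K ∩ A) ∩ B) ∪ (K \ A) ∪ Kᶜ) := by
    apply measureReal_mono _ (measure_ne_top _ _)
    intro x hx
    by_cases hxK : x ∈ K
    · by_cases hxA : x ∈ A
      · exact Or.inl (Or.inl ⟨⟨hxK, hxA⟩, hx⟩)
      · exact Or.inl (Or.inr ⟨hxK, hxA⟩)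
    · exact Or.inr hxK
  have h2 : (unif K).real Kᶜ = 0 := by
    have : unif K Kᶜ = 0 := unif_compl hK
    simp [Measure.real, this]
  have h3 := measureReal_union_le (μ := unif K) (((K ∩ A) ∩ B) ∪ (K \ A)) Kᶜ
  have h4 := measureReal_union_le (μ := unif K) ((K ∩ A) ∩ B) (K \ A)
  have h5 : (unif K).real (K \ A) = (volume.real K)⁻¹ * volume.real (K \ A) := by
    rw [unif_real_apply hK sdiff_subset, div_eq_inv_mul]
  have h6 : (volume.real K)⁻¹ * volume.real (K \ A) ≤ (d / r) * h := by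
    calc _ ≤ (volume.real K)⁻¹ * ((d * volume.real K / r) * h) :=
          mul_le_mul_of_nonneg_left hvd (by positivity)
      _ = _ := by field_simp
  linarith only [h1, h2, h3, h4, h5, h6]

end Vale.Agent.P074.H275
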