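import Vale.Agent.P074.H275.Up

/-!
# P074: the weak-type estimate on the critical line
-/

open MeasureTheory Set Metric
open scoped ENNReal NNReal RealInnerProductSpace

namespace Vale.Agent.P074.H275

open Vale.Agent.P074 Vale.Agent.P074.H109

variable {d : ℕ}

/-- The weak-type estimate with exponent `1/2` at `q = 2 p / (p + 1)`. -/
theorem up_weak {K Y : Set (E d)} (hK : IsCompact K) (hKc : Convex ℝ K)
    (hKi : (interior K).Nonempty) (hY : IsCompact Y) {p : ℝ} (hp1 : 1 ≤ p) (hp2 : p ≤ 2) :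
    ∃ C : ℝ≥0, WeakLqStability (unif K) Y (2 * p / (p + 1)) p (1 / 2) C := by
  obtain ⟨R, hR, hKR⟩ := hK.isBounded.exists_pos_norm_le
  obtain ⟨M', hM', hYM⟩ := hY.isBounded.exists_pos_norm_le
  obtain ⟨M, hM⟩ : ∃ M : ℝ, M = max M' 1 := ⟨_, rfl⟩
  have hM1 : 1 ≤ M := by rw [hM]; exact le_max_right _ _
  have hKR' : K ⊆ closedBall 0 R := fun x hx => by
    simpa only [mem_closedBall, dist_zero_right] using hKR x hx
  have hYM' : Y ⊆ closedBall 0 M := fun x hx => by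
    simp only [mem_closedBall, dist_zero_right]
    exact (hYM x hx).trans (by rw [hM]; exact le_max_left _ _)
  have hprob := Final.unif_prob hK hKi
  have hp : 0 < p := by linarith only [hp1]
  have hp3 : 0 < p + 1 := by linarith only [hp1]
  obtain ⟨N, hN, hfin⟩ := weak_conv hK hKc hKi hR.le hM1 hKR' hp1 hp2
  have hγ : 0 < 1 / (2 * p / (p + 1)) := by positivity
  have hN1 : 0 < N + 1 := by linarith only [hN]
  have hCpos : 0 < (N + 1) ^ (1 / (2 * p / (p + 1))) := Real.rpow_pos_of_pos hN1 _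
  refine ⟨Real.toNNReal ((N + 1) ^ (1 / (2 * p / (p + 1)))), ?_⟩
  intro μ ν hμ hν hμY hνY T S hT hS a
  have hsub : (closedBall (0 : E d) M)ᶜ ⊆ Yᶜ := compl_subset_compl.2 hYM'
  have hμM : μ (closedBall 0 M)ᶜ = 0 := measure_mono_null hsub hμY
  have hνM : ν (closedBall 0 M)ᶜ = 0 := measure_mono_null hsub hνY
  apply le_of_forall_coupling hp (by norm_num)
  · exact (Real.toNNReal_pos.2 hCpos).ne'
  intro π h1 h2
  have hπ : IsProbabilityMeasure π := by
    refine ⟨?_⟩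
    have h3 : π.map Prod.fst univ = 1 := by rw [h1]; exact measure_univ
    rwa [Measure.map_apply measurable_fst MeasurableSet.univ, preimage_univ] at h3
  have hsupp := support_of_marginals h1 h2 hμM hνM
  have hint : ∫⁻ z, ‖z.1 - z.2‖ₑ ^ p ∂π = ENNReal.ofReal (∫ z, ‖z.1 - z.2‖ ^ p ∂π) := by
    rw [ofReal_integral_eq_lintegral_ofReal]
    · apply lintegral_congr
      intro z
      rw [← ENNReal.ofReal_rpow_of_nonneg (norm_nonneg _) hp.le, ofReal_norm]
    · apply integrable_coupling hsupp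
        ((measurable_fst.sub measurable_snd).norm.pow_const p) (C := (M + M) ^ p)
      intro z hz1 hz2
      rw [abs_of_nonneg (Real.rpow_nonneg (norm_nonneg _) _)]
      exact Real.rpow_le_rpow (norm_nonneg _)
        (le_trans (norm_sub_le _ _) (add_le_add hz1 hz2)) hp.le
    · filter_upwards with z
      exact Real.rpow_nonneg (norm_nonneg _) _
  have hJ : 0 ≤ ∫ z, ‖z.1 - z.2‖ ^ p ∂π :=
    integral_nonneg fun z => Real.rpow_nonneg (norm_nonneg _) _
  rcases eq_or_ne a 0 with h0 | h0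
  · rw [h0, ENNReal.coe_zero, zero_mul]
    exact zero_le
  have ha : (0 : ℝ) < a := NNReal.coe_pos.2 (pos_iff_ne_zero.2 h0)
  have hw := hfin μ ν hμ hν hμM hνM T S hT hS π hπ h1 h2 a ha
  rw [hint, ENNReal.ofReal_rpow_of_nonneg hJ (by positivity)]
  have hcoe : ((Real.toNNReal ((N + 1) ^ (1 / (2 * p / (p + 1)))) : ℝ≥0) : ℝ≥0∞) =
      ENNReal.ofReal ((N + 1) ^ (1 / (2 * p / (p + 1)))) := rfl
  rw [hcoe, ← ENNReal.ofReal_mul hCpos.le]
  set J := ∫ z, ‖z.1 - z.2‖ ^ p ∂π with hJdef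
  have hm0 : 0 ≤ (unif K).real {x | (a : ℝ) ≤ ‖T x - S x‖} := measureReal_nonneg
  have hm : (unif K) {x | (a : ℝ) ≤ ‖T x - S x‖} =
      ENNReal.ofReal ((unif K).real {x | (a : ℝ) ≤ ‖T x - S x‖}) :=
    (ofReal_measureReal (measure_ne_top _ _)).symm
  rw [hm, ← ENNReal.ofReal_coe_nnreal (p := a), ENNReal.ofReal_rpow_of_nonneg hm0 hγ.le,
    ← ENNReal.ofReal_mul ha.le]
  apply ENNReal.ofReal_le_ofReal
  have hJ1 : 0 ≤ J ^ (1 / (p + 1)) := Real.rpow_nonneg hJ _
  have h3 : ((unif K).real {x | (a : ℝ) ≤ ‖T x - S x‖}) ^ (1 / (2 * p / (p + 1))) ≤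
      ((N + 1) * J ^ (1 / (p + 1)) * (a : ℝ) ^ (-(2 * p / (p + 1)))) ^
        (1 / (2 * p / (p + 1))) := by
    apply Real.rpow_le_rpow hm0 _ hγ.le
    refine hw.trans ?_
    gcongr
    linarith only []
  have hpp : 2 * p / (p + 1) ≠ 0 := by positivity
  have e1 : ((N + 1) * J ^ (1 / (p + 1)) * (a : ℝ) ^ (-(2 * p / (p + 1)))) ^
        (1 / (2 * p / (p + 1))) =
      (N + 1) ^ (1 / (2 * p / (p + 1))) * J ^ (1 / 2 / p) * (a : ℝ)⁻¹ := by
    rw [Real.mul_rpow (by positivity) (by positivity), Real.mul_rpow hN1.le hJ1,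
      ← Real.rpow_mul hJ, ← Real.rpow_mul ha.le]
    have e2 : -(2 * p / (p + 1)) * (1 / (2 * p / (p + 1))) = -1 := by field_simp
    have e3 : 1 / (p + 1) * (1 / (2 * p / (p + 1))) = 1 / 2 / p := by field_simp
    rw [e2, e3, Real.rpow_neg_one]
  rw [e1] at h3
  calc (a : ℝ) * ((unif K).real {x | (a : ℝ) ≤ ‖T x - S x‖}) ^ (1 / (2 * p / (p + 1)))
      ≤ a * ((N + 1) ^ (1 / (2 * p / (p + 1))) * J ^ (1 / 2 / p) * (a : ℝ)⁻¹) :=
        mul_le_mul_of_nonneg_left h3 ha.le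
    _ = (N + 1) ^ (1 / (2 * p / (p + 1))) * J ^ (1 / 2 / p) := by
        field_simp

end Vale.Agent.P074.H275
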