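import Vale.Agent.P074.H275.Diag
import Vale.Agent.P074.H275.WeakUp

/-!
# P074: the theorem
-/

open MeasureTheory Set Metric
open scoped ENNReal NNReal

namespace Vale.Agent.P074.H275

open Vale.Agent.P074

/-- The whole result. -/
theorem main (d : ℕ) (hd : 2 ≤ d) :
    IsGreatest {α : ℝ | 0 < α ∧ α ≤ 1 ∧ Admissible d α} (1 / 3) ∧
    (∀ p q : ℝ, 1 ≤ p → p ≤ 2 → 1 ≤ q → ∀ K Y : Set (E d), IsCompact K → Convex ℝ K →
      (interior K).Nonempty → IsCompact Y →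
      (q ≠ 2 * p / (p + 1) ∨ p = 1 →
        ∃ C : ℝ≥0, LqStability (unif K) Y q p (min (1 / 2) (p / (q * (p + 1)))) C) ∧
      (q = 2 * p / (p + 1) → ∃ C : ℝ≥0, WeakLqStability (unif K) Y q p (1 / 2) C) ∧
      ((interior Y).Nonempty →
        IsLUB {α : ℝ | 0 ≤ α ∧ ∃ C : ℝ≥0, LqStability (unif K) Y q p α C}
          (min (1 / 2) (p / (q * (p + 1)))))) ∧
    (∀ p q : ℝ, 2 ≤ p → 1 ≤ q → q < 4 / 3 → ∀ K Y : Set (E d), IsCompact K → Convex ℝ K →
      (interior K).Nonempty → IsCompact Y → (interior Y).Nonempty →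
      IsGreatest {α : ℝ | 0 ≤ α ∧ ∃ C : ℝ≥0, LqStability (unif K) Y q p α C} (1 / 2)) ∧
    (∀ p q : ℝ, 0 < p → 1 ≤ q → ∀ K Y : Set (E d), IsCompact K → (interior K).Nonempty →
      IsCompact Y → (interior Y).Nonempty → ∀ α : ℝ, 0 ≤ α →
        (∃ C : ℝ≥0, LqStability (unif K) Y q p α C) → α ≤ min (1 / 2) (p / (q * (p + 1)))) ∧
    (∀ (Λ : ℝ≥0) (R q : ℝ) (Y : Set (E d)), 1 ≤ q → IsCompact Y → ∃ C : ℝ≥0,
      ∀ ρ : Measure (E d), IsProbabilityMeasure ρ → ρ ≤ Λ • volume → ρ (closedBall 0 R)ᶜ = 0 →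
        (∀ μ : Measure (E d), IsProbabilityMeasure μ → μ Yᶜ = 0 →
          ∃ T : E d → E d, IsOptimalMap ρ μ T) ∧
        LqStability ρ Y q 1 (1 / (2 * q)) C) := by
  refine ⟨isGreatest_third d hd, ?_, ?_, ?_, ?_⟩
  · intro p q hp1 hp2 hq K Y hK hKc hKi hY
    refine ⟨diag_attained hK hKc hKi hY hp1 hp2 hq, ?_, ?_⟩
    · intro h
      rw [h]
      exact up_weak hK hKc hKi hY hp1 hp2
    · intro hYi
      exact diag_lub hd hK hKc hKi hY hYi hp1 hp2 hq
  · intro p q hp hq hq2 K Y hK hKc hKi hY hYi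
    exact diag_two hd hK hKc hKi hY hYi hp hq hq2
  · rintro p q hp hq K Y hK hKi hY hYi α hα ⟨C, hC⟩
    exact le_min (lq_exponent_le_half hd hK hKi hY hYi hq hp hα hC)
      (lq_exponent_le hd hK hKi hY hYi hq hp hα hC)
  · intro Λ R q Y hq hY
    obtain ⟨C, hC⟩ := up_w1 d Λ R hY hq
    obtain ⟨M, hM, hYM⟩ := hY.isBounded.exists_pos_norm_le
    have hYM' : Y ⊆ closedBall 0 M := fun x hx => by
      simpa only [mem_closedBall, dist_zero_right] using hYM x hx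
    refine ⟨C, fun ρ hprob hρ hρR => ⟨?_, hC ρ hprob hρ hρR⟩⟩
    intro μ hμ hμY
    have hρac : ρ ≪ volume :=
      (Measure.absolutelyContinuous_of_le hρ).trans (Measure.smul_absolutelyContinuous)
    have hρR' : ρ (closedBall 0 (max R 0))ᶜ = 0 :=
      measure_mono_null (compl_subset_compl.2 (closedBall_subset_closedBall (le_max_left _ _)))
        hρR
    exact H109.exists_optimalMap (le_max_right R 0) hM.le hρac hρR' hμ
      (measure_mono_null (compl_subset_compl.2 hYM') hμY)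

end Vale.Agent.P074.H275
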