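import Vale.Agent.P074.H275.Full
import Vale.Agent.P074.H275.Cake
import Vale.Agent.P074.H275.L1

/-!
# P074: the stability estimates in `L^q`
-/

open MeasureTheory Set Metric
open scoped ENNReal NNReal RealInnerProductSpace

namespace Vale.Agent.P074.H275

open Vale.Agent.P074 Vale.Agent.P074.H109

variable {d : ℕ}

/-- From an estimate along all couplings to the stability estimate. -/
theorem lq_assemble {ρ : Measure (E d)} {Y : Set (E d)} {M : ℝ}
    (hY : Y ⊆ closedBall 0 M) {p q γ : ℝ} (hp : 0 < p) (hq : 0 < q) (hγ : 0 < γ) {C : ℝ}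
    (hC : 0 ≤ C)
    (hfin : ∀ μ ν : Measure (E d), IsProbabilityMeasure μ → IsProbabilityMeasure ν →
      μ (closedBall 0 M)ᶜ = 0 → ν (closedBall 0 M)ᶜ = 0 →
      ∀ T₀ T₁ : E d → E d, IsOptimalMap ρ μ T₀ → IsOptimalMap ρ ν T₁ →
      ∀ π : Measure (E d × E d), IsProbabilityMeasure π →
        π.map Prod.fst = μ → π.map Prod.snd = ν →
        ∫⁻ x, ENNReal.ofReal (‖T₀ x - T₁ x‖ ^ q) ∂ρ ≤
          ENNReal.ofReal (C * (∫ z, ‖z.1 - z.2‖ ^ p ∂π) ^ γ)) :
    LqStability ρ Y q p (p * γ / q) (Real.toNNReal ((C + 1) ^ (1 / q))) := by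
  intro μ ν hμ hν hμY hνY T S hT hS
  have hsub : (closedBall (0 : E d) M)ᶜ ⊆ Yᶜ := compl_subset_compl.2 hY
  have hμM : μ (closedBall 0 M)ᶜ = 0 := measure_mono_null hsub hμY
  have hνM : ν (closedBall 0 M)ᶜ = 0 := measure_mono_null hsub hνY
  have hCpos : (0 : ℝ) < (C + 1) ^ (1 / q) := Real.rpow_pos_of_pos (by linarith only [hC]) _
  apply le_of_forall_coupling hp (by positivity)
  · exact (Real.toNNReal_pos.2 hCpos).ne'
  intro π h1 h2
  have hπ : IsProbabilityMeasure π := by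
    refine ⟨?_⟩
    have h3 : π.map Prod.fst univ = 1 := by rw [h1]; exact measure_univ
    rwa [Measure.map_apply measurable_fst MeasurableSet.univ, preimage_univ] at h3
  have hsupp := support_of_marginals h1 h2 hμM hνM
  have hint : ∫⁻ z, ‖z.1 - z.2‖ₑ ^ p ∂π = ENNReal.ofReal (∫ z, ‖z.1 - z.2‖ ^ p ∂π) := by
    rw [ofReal_integral_eq_lintegral_ofReal]
    · apply lintegral_congr
      intro z
      rw [← ENNReal.ofReal_rpow_of_nonneg (norm_nonneg _) hp.le, ofReal_norm]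
    · apply integrable_coupling hsupp
        ((measurable_fst.sub measurable_snd).norm.pow_const p) (C := (M + M) ^ p)
      intro z hz1 hz2
      rw [abs_of_nonneg (Real.rpow_nonneg (norm_nonneg _) _)]
      exact Real.rpow_le_rpow (norm_nonneg _)
        (le_trans (norm_sub_le _ _) (add_le_add hz1 hz2)) hp.le
    · filter_upwards with z
      exact Real.rpow_nonneg (norm_nonneg _) _
  have hJ : 0 ≤ ∫ z, ‖z.1 - z.2‖ ^ p ∂π :=
    integral_nonneg fun z => Real.rpow_nonneg (norm_nonneg _) _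
  have hmain := hfin μ ν hμ hν hμM hνM T S hT hS π hπ h1 h2
  have hq1 : ENNReal.ofReal q ≠ 0 := by
    rw [ENNReal.ofReal_ne_zero_iff]
    exact hq
  rw [eLpNorm_eq_lintegral_rpow_enorm_toReal hq1 ENNReal.ofReal_ne_top,
    ENNReal.toReal_ofReal hq.le, hint, ENNReal.ofReal_rpow_of_nonneg hJ (by positivity)]
  have hcoe : ((Real.toNNReal ((C + 1) ^ (1 / q)) : ℝ≥0) : ℝ≥0∞) =
      ENNReal.ofReal ((C + 1) ^ (1 / q)) := rfl
  rw [hcoe, ← ENNReal.ofReal_mul hCpos.le]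
  set J := ∫ z, ‖z.1 - z.2‖ ^ p ∂π with hJdef
  have hJγ : 0 ≤ J ^ γ := Real.rpow_nonneg hJ _
  have e1 : ∫⁻ x, ‖T x - S x‖ₑ ^ q ∂ρ = ∫⁻ x, ENNReal.ofReal (‖T x - S x‖ ^ q) ∂ρ := by
    apply lintegral_congr
    intro x
    rw [← ENNReal.ofReal_rpow_of_nonneg (norm_nonneg _) hq.le, ofReal_norm]
  rw [e1]
  have h5 : ∫⁻ x, ENNReal.ofReal (‖T x - S x‖ ^ q) ∂ρ ≤ ENNReal.ofReal ((C + 1) * J ^ γ) := by
    refine le_trans hmain (ENNReal.ofReal_le_ofReal ?_)
    nlinarith only [hJγ]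
  refine (ENNReal.rpow_le_rpow h5 (by positivity)).trans (le_of_eq ?_)
  rw [ENNReal.ofReal_rpow_of_nonneg (mul_nonneg (by linarith only [hC]) hJγ) (by positivity)]
  congr 1
  rw [Real.mul_rpow (by linarith only [hC]) hJγ, ← Real.rpow_mul hJ]
  congr 2
  field_simp

/-- Above the critical exponent. -/
theorem up_hi {K Y : Set (E d)} (hK : IsCompact K) (hKc : Convex ℝ K)
    (hKi : (interior K).Nonempty) (hY : IsCompact Y) {p q : ℝ} (hp1 : 1 ≤ p) (hp2 : p ≤ 2)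
    (hq : 2 * p / (p + 1) < q) :
    ∃ C : ℝ≥0, LqStability (unif K) Y q p (p / (q * (p + 1))) C := by
  obtain ⟨R, hR, hKR⟩ := hK.isBounded.exists_pos_norm_le
  obtain ⟨M', hM', hYM⟩ := hY.isBounded.exists_pos_norm_le
  obtain ⟨M, hM⟩ : ∃ M : ℝ, M = max M' 1 := ⟨_, rfl⟩
  have hM1 : 1 ≤ M := by rw [hM]; exact le_max_right _ _
  have hKR' : K ⊆ closedBall 0 R := fun x hx => by
    simpa only [mem_closedBall, dist_zero_right] using hKR x hx
  have hYM' : Y ⊆ closedBall 0 M := fun x hx => by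
    simp only [mem_closedBall, dist_zero_right]
    exact (hYM x hx).trans (by rw [hM]; exact le_max_left _ _)
  have hprob := Final.unif_prob hK hKi
  have hp0 : 0 < p := by linarith only [hp1]
  have hp3 : 0 < p + 1 := by linarith only [hp1]
  have hq0 : 0 < q := lt_trans (by positivity) hq
  obtain ⟨N, hN, hfin⟩ := weak_conv hK hKc hKi hR.le hM1 hKR' hp1 hp2
  have hqq : 0 < q - 2 * p / (p + 1) := by linarith only [hq]
  have hM0 : 0 < 2 * M := by linarith only [hM1]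
  have hL : 0 ≤ (2 * M) ^ (q - 2 * p / (p + 1)) / (q - 2 * p / (p + 1)) :=
    div_nonneg (Real.rpow_nonneg hM0.le _) hqq.le
  have key := lq_assemble (ρ := unif K) (p := p) (q := q) (γ := 1 / (p + 1)) hYM' hp0 hq0
    (by positivity)
    (C := q * (N * ((2 * M) ^ (q - 2 * p / (p + 1)) / (q - 2 * p / (p + 1))))) (by positivity) ?_
  · have e : p / (q * (p + 1)) = p * (1 / (p + 1)) / q := by field_simp
    rw [e]
    exact ⟨_, key⟩
  intro μ ν hμ hν hμM hνM T₀ T₁ hT₀ hT₁ π hπ h1 h2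
  have hT₀M := ae_mem_of_optimal hT₀ hμM
  have hT₁M := ae_mem_of_optimal hT₁ hνM
  have hJ : 0 ≤ ∫ z, ‖z.1 - z.2‖ ^ p ∂π :=
    integral_nonneg fun z => Real.rpow_nonneg (norm_nonneg _) _
  have hb : ∀ᵐ x ∂(unif K), ‖T₀ x - T₁ x‖ ≤ 2 * M := by
    filter_upwards [hT₀M, hT₁M] with x h3 h4
    have h3' : ‖T₀ x‖ ≤ M := mem_closedBall_zero_iff.1 h3
    have h4' : ‖T₁ x‖ ≤ M := mem_closedBall_zero_iff.1 h4
    exact (norm_sub_le _ _).trans (by linarith only [h3', h4'])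
  have := strong_hi (μ := unif K) (f := fun x => ‖T₀ x - T₁ x‖) (hT₀.1.sub hT₁.1).norm
    (fun x => norm_nonneg _) hM0 hb hq hq0 (mul_nonneg hN (Real.rpow_nonneg hJ _))
    (fun a ha => hfin μ ν hμ hν hμM hνM T₀ T₁ hT₀ hT₁ π hπ h1 h2 a ha)
  refine this.trans (le_of_eq ?_)
  congr 1
  ring

/-- Below the critical exponent. -/
theorem up_lo {K Y : Set (E d)} (hK : IsCompact K) (hKc : Convex ℝ K)
    (hKi : (interior K).Nonempty) (hY : IsCompact Y) {p q : ℝ} (hp1 : 1 ≤ p) (hp2 : p ≤ 2)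
    (hq0 : 0 < q) (hq : q < 2 * p / (p + 1)) :
    ∃ C : ℝ≥0, LqStability (unif K) Y q p (1 / 2) C := by
  obtain ⟨R, hR, hKR⟩ := hK.isBounded.exists_pos_norm_le
  obtain ⟨M', hM', hYM⟩ := hY.isBounded.exists_pos_norm_le
  obtain ⟨M, hM⟩ : ∃ M : ℝ, M = max M' 1 := ⟨_, rfl⟩
  have hM1 : 1 ≤ M := by rw [hM]; exact le_max_right _ _
  have hKR' : K ⊆ closedBall 0 R := fun x hx => by
    simpa only [mem_closedBall, dist_zero_right] using hKR x hx
  have hYM' : Y ⊆ closedBall 0 M := fun x hx => by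
    simp only [mem_closedBall, dist_zero_right]
    exact (hYM x hx).trans (by rw [hM]; exact le_max_left _ _)
  have hprob := Final.unif_prob hK hKi
  have hp0 : 0 < p := by linarith only [hp1]
  have hp3 : 0 < p + 1 := by linarith only [hp1]
  obtain ⟨N, hN, hfin⟩ := weak_conv hK hKc hKi hR.le hM1 hKR' hp1 hp2
  have hqq : 0 < 2 * p / (p + 1) - q := by linarith only [hq]
  have hNq : 0 ≤ N ^ (q / (2 * p / (p + 1))) := Real.rpow_nonneg hN _
  have key := lq_assemble (ρ := unif K) (p := p) (q := q) (γ := q / (2 * p)) hYM' hp0 hq0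
    (by positivity)
    (C := (1 + q / (2 * p / (p + 1) - q)) * N ^ (q / (2 * p / (p + 1)))) (by positivity) ?_
  · have e : (1 : ℝ) / 2 = p * (q / (2 * p)) / q := by field_simp
    rw [e]
    exact ⟨_, key⟩
  intro μ ν hμ hν hμM hνM T₀ T₁ hT₀ hT₁ π hπ h1 h2
  have hJ : 0 ≤ ∫ z, ‖z.1 - z.2‖ ^ p ∂π :=
    integral_nonneg fun z => Real.rpow_nonneg (norm_nonneg _) _
  have := strong_lo (μ := unif K) (f := fun x => ‖T₀ x - T₁ x‖) (hT₀.1.sub hT₁.1).norm
    (fun x => norm_nonneg _) hq hq0 (mul_nonneg hN (Real.rpow_nonneg hJ _))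
    (fun a ha => hfin μ ν hμ hν hμM hνM T₀ T₁ hT₀ hT₁ π hπ h1 h2 a ha)
  refine this.trans (le_of_eq ?_)
  congr 1
  rw [Real.mul_rpow hN (Real.rpow_nonneg hJ _), ← Real.rpow_mul hJ]
  have e : 1 / (p + 1) * (q / (2 * p / (p + 1))) = q / (2 * p) := by field_simp
  rw [e]
  ring

/-- The estimate with respect to `W_1` for a general source, `q ≥ 1`. -/
theorem up_w1 (d : ℕ) (Λ : ℝ≥0) (R : ℝ) {Y : Set (E d)} (hY : IsCompact Y) {q : ℝ}
    (hq : 1 ≤ q) :
    ∃ C : ℝ≥0, ∀ ρ : Measure (E d), IsProbabilityMeasure ρ → ρ ≤ Λ • volume →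
      ρ (closedBall 0 R)ᶜ = 0 → LqStability ρ Y q 1 (1 / (2 * q)) C := by
  obtain ⟨M', hM', hYM⟩ := hY.isBounded.exists_pos_norm_le
  obtain ⟨M, hM⟩ : ∃ M : ℝ, M = max M' 1 := ⟨_, rfl⟩
  have hM1 : 1 ≤ M := by rw [hM]; exact le_max_right _ _
  have hYM' : Y ⊆ closedBall 0 M := fun x hx => by
    simp only [mem_closedBall, dist_zero_right]
    exact (hYM x hx).trans (by rw [hM]; exact le_max_left _ _)
  have hq0 : 0 < q := by linarith only [hq]
  have hM0 : 0 < 2 * M := by linarith only [hM1]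
  obtain ⟨C, hC, hfin⟩ := final_l1 d Λ (le_max_right R 0) hM1
  have hL : 0 ≤ (2 * M) ^ (q - 1) := Real.rpow_nonneg hM0.le _
  refine ⟨Real.toNNReal ((((2 * M) ^ (q - 1) * C) + 1) ^ (1 / q)), ?_⟩
  intro ρ hprob hρ hρR
  have hρR' : ρ (closedBall 0 (max R 0))ᶜ = 0 :=
    measure_mono_null (compl_subset_compl.2 (closedBall_subset_closedBall (le_max_left _ _))) hρR
  have key := lq_assemble (ρ := ρ) (p := 1) (q := q) (γ := 1 / 2) hYM' one_pos hq0
    (by norm_num) (C := (2 * M) ^ (q - 1) * C) (by positivity) ?_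
  · have e : 1 / (2 * q) = 1 * (1 / 2) / q := by field_simp
    rw [e]
    exact key
  intro μ ν hμ hν hμM hνM T₀ T₁ hT₀ hT₁ π hπ h1 h2
  have hT₀M := ae_mem_of_optimal hT₀ hμM
  have hT₁M := ae_mem_of_optimal hT₁ hνM
  have h3 := hfin ρ hprob hρ hρR' μ ν hμ hν hμM hνM T₀ T₁ hT₀ hT₁ π hπ h1 h2
  have hb : ∀ᵐ x ∂ρ, ‖T₀ x - T₁ x‖ ≤ 2 * M := by
    filter_upwards [hT₀M, hT₁M] with x h3 h4
    have h3' : ‖T₀ x‖ ≤ M := mem_closedBall_zero_iff.1 h3
    have h4' : ‖T₁ x‖ ≤ M := mem_closedBall_zero_iff.1 h4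
    exact (norm_sub_le _ _).trans (by linarith only [h3', h4'])
  have hint : Integrable (fun x => ‖T₀ x - T₁ x‖) ρ := by
    apply Integrable.of_bound (hT₀.1.sub hT₁.1).norm.aestronglyMeasurable (2 * M)
    filter_upwards [hb] with x hx
    rwa [Real.norm_eq_abs, abs_of_nonneg (norm_nonneg _)]
  have h4 : ∫⁻ x, ENNReal.ofReal (‖T₀ x - T₁ x‖ ^ q) ∂ρ ≤
      ∫⁻ x, ENNReal.ofReal ((2 * M) ^ (q - 1) * ‖T₀ x - T₁ x‖) ∂ρ := by
    apply lintegral_mono_ae
    filter_upwards [hb] with x hx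
    apply ENNReal.ofReal_le_ofReal
    rcases (norm_nonneg (T₀ x - T₁ x)).eq_or_lt with h0 | h0
    · rw [← h0, Real.zero_rpow hq0.ne', mul_zero]
    · have e : ‖T₀ x - T₁ x‖ ^ q = ‖T₀ x - T₁ x‖ ^ (q - 1) * ‖T₀ x - T₁ x‖ := by
        conv_lhs => rw [show q = (q - 1) + 1 by ring, Real.rpow_add h0, Real.rpow_one]
      rw [e]
      apply mul_le_mul_of_nonneg_right _ h0.le
      exact Real.rpow_le_rpow h0.le hx (by linarith only [hq])
  refine h4.trans ?_
  rw [← ofReal_integral_eq_lintegral_ofReal (hint.const_mul _)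
    (ae_of_all _ fun x => mul_nonneg hL (norm_nonneg _)), integral_const_mul]
  apply ENNReal.ofReal_le_ofReal
  rw [mul_assoc]
  apply mul_le_mul_of_nonneg_left _ hL
  have e : (1 : ℝ) / (1 + 1) = 1 / 2 := by norm_num
  rw [e] at h3
  exact h3

end Vale.Agent.P074.H275
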