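import Vale.Agent.P074.H275.Level

/-!
# P074: the weak type estimate
-/

open MeasureTheory Set Metric
open scoped ENNReal NNReal RealInnerProductSpace

namespace Vale.Agent.P074.H275

open Vale.Agent.P074 Vale.Agent.P074.H109

variable {d : ℕ}

/-- The choice of the step `h = c a m₀` and of the truncation `k = a h`. -/
theorem opt_level {p m₀ w a r e C R P M : ℝ} (hp1 : 1 ≤ p) (hm0 : 0 ≤ m₀) (hm1 : m₀ ≤ 1)
    (hw : 0 ≤ w) (ha : 0 < a) (haM : a ≤ 2 * M) (hr : 0 < r) (he : 0 ≤ e)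
    (hC : 0 ≤ C) (hR : 0 ≤ R) (hP : 0 ≤ P) {c : ℝ} (hc : 0 < c) (hc1 : c * (2 * M) ≤ r)
    (hc2 : c * (4 * M * e) ≤ 1) (hc3 : 4 * P * c ≤ 1)
    (H : ∀ h, 0 < h → h ≤ r → ∀ k, 0 < k → ∃ m, 0 ≤ m ∧ m ≤ m₀ ∧ m₀ ≤ m + e * h ∧
      a * h * m ≤ 2 * C * √m * √(k ^ (2 - p) * w) + 2 * (2 * R * (k ^ (1 - p) * w)) + P * h ^ 2) :
    m₀ ^ (p + 1) * a ^ (2 * p) ≤ (256 * C ^ 2 + 32 * R) * (c ^ p)⁻¹ * w := by
  have hp0 : 0 < p := by linarith only [hp1]
  rcases hm0.eq_or_lt with h0 | h0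
  · rw [← h0, Real.zero_rpow (by linarith only [hp1]), zero_mul]
    have := Real.rpow_nonneg hc.le p
    positivity
  set h : ℝ := c * (a * m₀) with hh
  have hh0 : 0 < h := by positivity
  have hM0 : 0 < M := by linarith only [ha, haM]
  have hhr : h ≤ r := by
    have h1 : a * m₀ ≤ 2 * M := by nlinarith only [haM, hm1, ha, h0]
    exact (mul_le_mul_of_nonneg_left h1 hc.le).trans hc1
  set k : ℝ := a * h with hk
  have hk0 : 0 < k := by positivity
  obtain ⟨m, hm, hmm, hme, hmain⟩ := H h hh0 hhr k hk0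
  have h1 : e * h ≤ m₀ / 2 := by
    have h2 : e * h = (c * e * a) * m₀ := by rw [hh]; ring
    have h3 : c * e * a ≤ 1 / 2 := by
      have h4 : c * e * a ≤ c * e * (2 * M) := mul_le_mul_of_nonneg_left haM (by positivity)
      linarith only [h4, hc2]
    rw [h2]
    nlinarith only [h3, h0]
  have h2 : m₀ / 2 ≤ m := by linarith only [h1, hme]
  have h3 : P * h ^ 2 ≤ a * h * m₀ / 4 := by
    have h4 : P * h ^ 2 = (4 * P * c) * (a * h * m₀) / 4 := by rw [hh]; ring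
    rw [h4]
    have h5 : 0 < a * h * m₀ := by positivity
    nlinarith only [hc3, h5]
  have h4 : a * h * (m₀ / 2) ≤ a * h * m := mul_le_mul_of_nonneg_left h2 (by positivity)
  set U : ℝ := k ^ (2 - p) * w with hU
  set V : ℝ := k ^ (1 - p) * w with hV
  have hU0 : 0 ≤ U := mul_nonneg (Real.rpow_nonneg hk0.le _) hw
  have hV0 : 0 ≤ V := mul_nonneg (Real.rpow_nonneg hk0.le _) hw
  have h5 : √m ≤ √m₀ := Real.sqrt_le_sqrt hmm
  have h6 : 2 * C * √m * √U ≤ 2 * C * √m₀ * √U := by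
    apply mul_le_mul_of_nonneg_right _ (Real.sqrt_nonneg _)
    exact mul_le_mul_of_nonneg_left h5 (by positivity)
  set X : ℝ := a * h * m₀ with hX
  have hX0 : 0 < X := by positivity
  have h7 : X / 4 ≤ 2 * C * √m₀ * √U + 4 * R * V := by
    have e1 : 2 * (2 * R * V) = 4 * R * V := by ring
    rw [e1] at hmain
    have e2 : a * h * (m₀ / 2) = X / 2 := by rw [hX]; ring
    rw [e2] at h4
    linarith only [hmain, h4, h3, h6]
  -- the main estimate for `m₀ k ^ p`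
  have e1 : k ^ (2 - p) * k ^ p = k ^ 2 := by
    rw [← Real.rpow_add hk0, sub_add_cancel, Real.rpow_two]
  have e2 : k ^ (1 - p) * k ^ p = k := by
    rw [← Real.rpow_add hk0, sub_add_cancel, Real.rpow_one]
  have hkp : 0 < k ^ p := Real.rpow_pos_of_pos hk0 _
  have hXk : X = k * m₀ := by rw [hX, hk]
  have key : m₀ * k ^ p ≤ (256 * C ^ 2 + 32 * R) * w := by
    rcases le_total (X / 8) (4 * R * V) with hcase | hcase
    · have h8 : X * k ^ p ≤ 32 * R * (k * w) := by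
        have h9 := mul_le_mul_of_nonneg_right hcase hkp.le
        have e3 : 4 * R * V * k ^ p = 4 * R * (k * w) := by
          rw [hV, show 4 * R * (k ^ (1 - p) * w) * k ^ p = 4 * R * ((k ^ (1 - p) * k ^ p) * w) by
            ring, e2]
        rw [e3] at h9
        linarith only [h9]
      rw [hXk] at h8
      have h10 : m₀ * k ^ p ≤ 32 * R * w := by
        have h11 : k * (m₀ * k ^ p) ≤ k * (32 * R * w) := by linarith only [h8]
        exact le_of_mul_le_mul_left h11 hk0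
      have : 0 ≤ 256 * C ^ 2 * w := by positivity
      linarith only [h10, this]
    · have h8 : X / 8 ≤ 2 * C * √m₀ * √U := by linarith only [h7, hcase]
      have h9 : X ^ 2 ≤ 256 * C ^ 2 * (m₀ * U) := by
        have h10 : X ≤ 16 * C * (√m₀ * √U) := by linarith only [h8]
        have h11 : X ^ 2 ≤ (16 * C * (√m₀ * √U)) ^ 2 := pow_le_pow_left₀ hX0.le h10 2
        have e3 : (16 * C * (√m₀ * √U)) ^ 2 = 256 * C ^ 2 * (√m₀ ^ 2 * √U ^ 2) := by ring
        rwa [e3, Real.sq_sqrt hm0, Real.sq_sqrt hU0] at h11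
      have h10 : X ^ 2 * k ^ p ≤ 256 * C ^ 2 * (m₀ * (k ^ 2 * w)) := by
        have h11 := mul_le_mul_of_nonneg_right h9 hkp.le
        have e3 : 256 * C ^ 2 * (m₀ * U) * k ^ p = 256 * C ^ 2 * (m₀ * (k ^ 2 * w)) := by
          rw [hU, show 256 * C ^ 2 * (m₀ * (k ^ (2 - p) * w)) * k ^ p =
            256 * C ^ 2 * (m₀ * ((k ^ (2 - p) * k ^ p) * w)) by ring, e1]
        rwa [e3] at h11
      rw [hXk] at h10
      have h12 : m₀ * k ^ p ≤ 256 * C ^ 2 * w := by
        have hpos : 0 < k ^ 2 * m₀ := by positivity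
        have h13 : (k ^ 2 * m₀) * (m₀ * k ^ p) ≤ (k ^ 2 * m₀) * (256 * C ^ 2 * w) := by
          linarith only [h10]
        exact le_of_mul_le_mul_left h13 hpos
      have : 0 ≤ 32 * R * w := by positivity
      linarith only [h12, this]
  have hkk : k = c * (a ^ 2 * m₀) := by rw [hk, hh]; ring
  have hcp : 0 < c ^ p := Real.rpow_pos_of_pos hc _
  have e3 : m₀ * k ^ p = c ^ p * (m₀ ^ (p + 1) * a ^ (2 * p)) := by
    rw [hkk, Real.mul_rpow hc.le (by positivity), Real.mul_rpow (by positivity) hm0,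
      Real.rpow_add h0, Real.rpow_one, ← Real.rpow_natCast a 2, ← Real.rpow_mul ha.le]
    push_cast
    ring
  rw [e3] at key
  have h13 : c ^ p * (m₀ ^ (p + 1) * a ^ (2 * p)) ≤
      c ^ p * ((256 * C ^ 2 + 32 * R) * (c ^ p)⁻¹ * w) := by
    refine key.trans (le_of_eq ?_)
    field_simp
  exact le_of_mul_le_mul_left h13 hcp

/-- Solving for the measure. -/
theorem solve_level {p m₀ w a N : ℝ} (hp1 : 1 ≤ p) (hm0 : 0 ≤ m₀) (hw : 0 ≤ w) (ha : 0 < a)
    (hN : 0 ≤ N) (h : m₀ ^ (p + 1) * a ^ (2 * p) ≤ N * w) :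
    m₀ ≤ N ^ (1 / (p + 1)) * w ^ (1 / (p + 1)) * a ^ (-(2 * p / (p + 1))) := by
  have hp2 : 0 < p + 1 := by linarith only [hp1]
  have h1 : (m₀ ^ (p + 1) * a ^ (2 * p)) ^ (1 / (p + 1)) ≤ (N * w) ^ (1 / (p + 1)) :=
    Real.rpow_le_rpow (mul_nonneg (Real.rpow_nonneg hm0 _) (Real.rpow_nonneg ha.le _)) h
      (by positivity)
  rw [Real.mul_rpow (Real.rpow_nonneg hm0 _) (Real.rpow_nonneg ha.le _), Real.mul_rpow hN hw,
    ← Real.rpow_mul hm0, ← Real.rpow_mul ha.le, mul_one_div_cancel hp2.ne', Real.rpow_one] at h1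
  have h2 : 0 < a ^ (2 * p * (1 / (p + 1))) := Real.rpow_pos_of_pos ha _
  rw [show -(2 * p / (p + 1)) = -(2 * p * (1 / (p + 1))) by ring, Real.rpow_neg ha.le,
    ← div_eq_mul_inv, le_div_iff₀ h2]
  exact h1

end Vale.Agent.P074.H275
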